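import Mathlib

/-!
Unit jobs with precedence constraints on identical machines: definitions.
-/

namespace Vale.Agent.P324

/-- An instance: jobs `Fin n`, the list `out u` of heads of the arcs leaving `u`, and the
length `T`. -/
structure Inst where
  /-- The number of jobs. -/
  n : ℕ
  /-- The arcs: `v ∈ out u` means that `u` must be processed before `v`. -/
  out : Fin n → List (Fin n)
  /-- The length of the schedule. -/
  T : ℕ

/-- There is a schedule of length `T` on `m` machines. -/
def Inst.Schedulable (m : ℕ) (I : Inst) : Prop :=
  ∃ τ : Fin I.n → ℕ, (∀ v, 1 ≤ τ v ∧ τ v ≤ I.T) ∧
    (∀ t, (Finset.univ.filter fun v => τ v = t).card ≤ m) ∧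
    ∀ u v, v ∈ I.out u → τ u < τ v

/-- Self-delimiting code of a bit. -/
def encBool : Bool → List Bool
  | false => [false]
  | true => [true, false, false]

/-- Self-delimiting code of a list. -/
def encList {α : Type} (f : α → List Bool) : List α → List Bool
  | [] => [false]
  | a :: l => true :: (f a ++ encList f l)

/-- Code of a natural number: the list of its binary digits. -/
def encNat (n : ℕ) : List Bool := encList encBool n.bits

/-- Code of an instance: the adjacency lists, then `T` in binary. -/
def encInst (I : Inst) : List Bool :=
  true :: (encList (fun u => encList (fun v : Fin I.n => encNat v.val) (I.out u))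
    (List.finRange I.n) ++ encNat I.T)

open Classical in
/-- The answer bit. -/
noncomputable def answer (m : ℕ) (I : Inst) : Bool := decide (I.Schedulable m)

end Vale.Agent.P324
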