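import Vale.Agent.P324.QPCorrect
import Vale.Agent.P324.QPDefs

/-!
Padding, and the machine.
-/

namespace Vale.Agent.P324.QP

open Finset Vale.Agent.Lib.H24.T

theorem card_fin (N : ℕ) (p : ℕ → Prop) [DecidablePred p] :
    (univ.filter fun v : Fin N => p v).card = ((range N).filter p).card := by
  refine card_bij (fun v _ => v.val) (fun v hv => ?_) (fun a _ b _ h => Fin.ext h) fun x hx => ?_
  · simpa using hv
  · simp only [mem_filter, mem_range] at hx
    exact ⟨⟨x, hx.1⟩, by simpa using hx.2, rfl⟩

theorem sum_fib {k l : ℕ} {ρ : ℕ → ℕ} (h : ∀ v < k, ρ v < l) :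
    ∑ t ∈ range l, ((range k).filter fun v => ρ v = t).card = k := by
  rw [← card_eq_sum_card_fiberwise (f := ρ) (fun v hv => by simpa using h v (by simpa using hv)),
    card_range]

theorem extend {n m l : ℕ} {σ : ℕ → ℕ} (h1 : ∀ v < n, σ v < l)
    (h2 : ∀ t, ((range n).filter fun v => σ v = t).card ≤ m) (k : ℕ) (hk : n ≤ k)
    (hk' : k ≤ l * m) : ∃ ρ : ℕ → ℕ, (∀ v < k, ρ v < l) ∧
      (∀ t, ((range k).filter fun v => ρ v = t).card ≤ m) ∧ ∀ v < n, ρ v = σ v := by
  induction k, hk using Nat.le_induction with
  | base => exact ⟨σ, h1, h2, fun _ _ => rfl⟩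
  | succ k hk ih =>
    obtain ⟨ρ, g1, g2, g3⟩ := ih (by omega)
    obtain ⟨t₀, ht₀, hc⟩ : ∃ t ∈ range l, ((range k).filter fun v => ρ v = t).card < m := by
      by_contra hn
      push Not at hn
      have := sum_le_sum hn
      rw [sum_fib g1, sum_const, card_range, smul_eq_mul] at this
      omega
    refine ⟨Function.update ρ k t₀, fun v hv => ?_, fun t => ?_, fun v hv => ?_⟩
    · rcases (Nat.le_of_lt_succ hv).eq_or_lt with rfl | c
      · simpa using ht₀
      · rw [Function.update_of_ne c.ne]; exact g1 v c
    · have e : ((range k).filter fun v => Function.update ρ k t₀ v = t) =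
          (range k).filter fun v => ρ v = t :=
        filter_congr fun v hv => by rw [Function.update_of_ne (mem_range.1 hv).ne]
      rw [range_add_one, filter_insert, e, Function.update_self]
      split_ifs with c
      · subst c
        exact (card_insert_le _ _).trans hc
      · exact g2 t
    · rw [Function.update_of_ne (by omega)]; exact g3 v hv

/-- Plain data of an instance. -/
def data (I : Inst) : List (List ℕ) × ℕ := (List.ofFn fun u => (I.out u).map Fin.val, I.T)

theorem jobs_eq (m : ℕ) (d : List (List ℕ) × ℕ) : jobs m d = List.range (min d.1.length d.2 * m) := by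
  rw [jobs, List.length_flatMap]
  simp only [List.length_replicate, List.map_const', List.sum_replicate, smul_eq_mul]
  congr 2
  rw [length_filter_range, card_fin d.1.length (fun i => decide (i < d.2) = true)]
  rw [← card_range (min _ _)]
  congr 1
  ext x; simp

theorem mem_adj (I : Inst) {u v : ℕ} : v ∈ (data I).1.getD u [] ↔
    ∃ (hu : u < I.n) (hv : v < I.n), (⟨v, hv⟩ : Fin I.n) ∈ I.out ⟨u, hu⟩ := by
  by_cases hu : u < I.n
  · have : (data I).1.getD u [] = (I.out ⟨u, hu⟩).map Fin.val := by
      simp [data, List.getD_eq_getElem?_getD, hu]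
    rw [this, List.mem_map]
    exact ⟨fun ⟨w, hw, e⟩ => ⟨hu, e ▸ w.2, by subst e; exact hw⟩, fun ⟨_, hv, h⟩ => ⟨_, h, rfl⟩⟩
  · have : (data I).1.getD u [] = [] := by
      simp [data, List.getD_eq_getElem?_getD, hu]
    rw [this]; simp [hu]

theorem compress {m : ℕ} {I : Inst} (h : I.Schedulable m) : ∃ σ : ℕ → ℕ,
    (∀ v < I.n, σ v < min I.n I.T) ∧ (∀ t, ((range I.n).filter fun v => σ v = t).card ≤ m) ∧
    ∀ u v : Fin I.n, v ∈ I.out u → σ u < σ v := by
  obtain ⟨τ, h1, h2, h3⟩ := h
  obtain ⟨σ, g1, g2⟩ : ∃ σ : Fin I.n → ℕ, (∀ v, σ v < min I.n I.T) ∧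
      ∀ u v, τ u < τ v → σ u < σ v := by
    by_cases c : I.T ≤ I.n
    · refine ⟨fun v => τ v - 1, fun v => ?_, fun u v h => ?_⟩
      · have := h1 v; simp only; omega
      · have := h1 u; simp only; omega
    · refine ⟨fun v => (univ.filter fun w => τ w < τ v).card, fun v => ?_, fun u v h => ?_⟩
      · have := card_lt_card (s := univ.filter fun w => τ w < τ v) (t := univ)
          ⟨subset_univ _, fun hn => by simpa using hn (mem_univ v)⟩
        simp only [card_univ, Fintype.card_fin] at this ⊢
        omega
      · exact card_lt_card ⟨fun w hw => by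
          have := (mem_filter.1 hw).2
          exact mem_filter.2 ⟨mem_univ _, by omega⟩,
          fun hn => by simpa using hn (mem_filter.2 ⟨mem_univ u, h⟩)⟩
  refine ⟨fun v => if h : v < I.n then σ ⟨v, h⟩ else 0, fun v hv => by simpa [hv] using g1 ⟨v, hv⟩,
    fun t => ?_, fun u v h => by simpa using g2 u v (h3 u v h)⟩
  rw [← card_fin I.n (fun v => (if h : v < I.n then σ ⟨v, h⟩ else 0) = t)]
  simp only [Fin.is_lt, dif_pos, Fin.eta]
  rcases (univ.filter fun v => σ v = t).eq_empty_or_nonempty with e | ⟨w, hw⟩
  · rw [e]; simp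
  · refine le_trans (card_le_card fun v hv => ?_) (h2 (τ w))
    have a1 := (mem_filter.1 hv).2
    have a2 := (mem_filter.1 hw).2
    refine mem_filter.2 ⟨mem_univ _, ?_⟩
    rcases lt_trichotomy (τ v) (τ w) with c | c | c
    · have := g2 _ _ c; omega
    · exact c
    · have := g2 _ _ c; omega

theorem sched_iff {m : ℕ} (hm : 0 < m) (I : Inst) : I.Schedulable m ↔
    I.n ≤ min I.n I.T * m ∧ Feas (rel (min I.n I.T * m)
      (clos (List.range (min I.n I.T * m)) (data I).1)) m univ := by
  obtain ⟨c1, c2, -⟩ := clos_spec (N := min I.n I.T * m) (data I).1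
  constructor
  · intro h
    obtain ⟨σ, h1, h2, h3⟩ := compress h
    have hn : I.n ≤ min I.n I.T * m := by
      have := sum_le_sum (s := range (min I.n I.T)) fun t _ => h2 t
      rwa [sum_fib h1, sum_const, card_range, smul_eq_mul] at this
    obtain ⟨ρ, g1, g2, g3⟩ := extend h1 h2 _ hn le_rfl
    refine ⟨hn, min I.n I.T, fun v => ρ v, fun v _ => g1 v v.2, fun t ht => ?_,
      fun u _ v _ huv => ?_⟩
    · rw [card_fin _ (fun v => ρ v = t)]
      by_contra hne
      have := sum_lt_sum (s := range (min I.n I.T)) (fun t _ => g2 t)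
        ⟨t, mem_range.2 ht, lt_of_le_of_ne (g2 t) hne⟩
      rw [sum_fib g1, sum_const, card_range, smul_eq_mul] at this
      omega
    · have step : ∀ a b : Fin (min I.n I.T * m), (b : ℕ) ∈ (data I).1.getD a [] → ρ a < ρ b :=
        fun a b hab => by
          obtain ⟨ha, hb, e⟩ := (mem_adj I).1 hab
          rw [g3 a ha, g3 b hb]
          exact h3 ⟨a, ha⟩ ⟨b, hb⟩ e
      have := c2 u v huv
      clear huv
      induction this with
      | single e => exact step _ _ e
      | tail _ e ih => exact (ih (mem_univ _)).trans (step _ _ e)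
  · rintro ⟨hn, l, τ, hτ⟩
    have hl : l = min I.n I.T := by
      have := hτ.card
      rw [card_univ, Fintype.card_fin, mul_comm m] at this
      exact (Nat.eq_of_mul_eq_mul_right hm this).symm
    refine ⟨fun v => τ (Fin.castLE hn v) + 1, fun v => ?_, fun t => ?_, fun u v h => ?_⟩
    · have := hτ.1 (Fin.castLE hn v) (mem_univ _)
      simp only; omega
    · rcases (univ.filter fun v => τ (Fin.castLE hn v) + 1 = t).eq_empty_or_nonempty with
        e | ⟨w, hw⟩
      · rw [e]; simp
      · refine le_of_le_of_eq (card_le_card_of_injOn (Fin.castLE hn) (fun v hv => ?_)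
          (Fin.castLE_injective hn).injOn) (hτ.2.1 _ (hτ.1 (Fin.castLE hn w) (mem_univ _)))
        have a1 := (mem_filter.1 (mem_coe.1 hv)).2
        have a2 := (mem_filter.1 hw).2
        simp only at a1
        exact mem_coe.2 (mem_filter.2 ⟨mem_univ _, by omega⟩)
    · exact Nat.succ_lt_succ (hτ.2.2 _ (mem_univ _) _ (mem_univ _)
        (c1 _ _ ((mem_adj I).2 ⟨u.2, v.2, h⟩)))

instance : Enc Inst := ⟨fun I => enc (data I)⟩

@[fun_prop] theorem PT_data {α : Type} [Enc α] {f : α → Inst} (hf : PT f) :
    PT (fun a => data (f a)) := hf.of_enc fun _ => rfl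

theorem encList_code {α β : Type} [Enc β] {f : α → List Bool} {φ : α → β}
    (h : ∀ a, f a = code (φ a)) (l : List α) : P324.encList f l = code (l.map φ) := by
  induction l with
  | nil => rfl
  | cons a l ih => rw [P324.encList, ih, h, List.map_cons, code_cons]

theorem encBool_code (b : Bool) : encBool b = code b := by cases b <;> rfl

theorem encNat_code (n : ℕ) : encNat n = code n := by
  rw [encNat, encList_code (φ := fun b => b) encBool_code, List.map_id']; rfl

theorem encInst_code (I : Inst) : encInst I = code I := by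
  rw [encInst, encList_code (φ := fun u => (I.out u).map Fin.val), ← List.ofFn_eq_map, encNat_code]
  · rfl
  · intro u
    exact encList_code (fun v => encNat_code _) _

theorem data_length (I : Inst) : (data I).1.length = I.n := by simp [data]

theorem n_le_sz (I : Inst) : I.n ≤ sz I := by
  have h1 := length_le_sz (data I).1
  have h2 : sz I = sz (data I).1 + sz (data I).2 + 1 := sz_pair' (data I)
  rw [data_length] at h1
  omega

theorem PT_adj : PT (fun I : Inst => (data I).1) := PT.fst (PT_data PT.id)

open Classical in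
theorem solve_run {m : ℕ} (hm : 0 < m) : ∃ (p : BP) (c : ℕ), ∀ I : Inst,
    Run p (code I) (code (answer m I))
      ((sz I + 2) ^ (c * ((cntL (jobs m (data I))).length + 1))) := by
  refine qp_run
    (base := fun I : Inst =>
      (terms m (jobs m (data I)) (clos (jobs m (data I)) (data I).1)).map fun _ => ())
    (G := fun p : Inst × List Unit => solve m (data p.1) p.2)
    (PT.map (PT_terms m (PT_jobs m (PT_data PT.id)) (PT_clos (PT_jobs m (PT_data PT.id)) PT_adj))
      (PT.const _)) (by fun_prop) (by fun_prop) fun I fuel hf => ?_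
  rw [List.length_map, jobs_eq, data_length] at hf
  rw [answer, Bool.eq_iff_iff, decide_eq_true_iff, sched_iff hm, solve, Bool.and_eq_true,
    decide_eq_true_iff, jobs_eq, data_length, List.length_range,
    core_iff hm (clos_spec _).2.2 hf]
  rfl

theorem cnt_le (m : ℕ) (I : Inst) :
    (cntL (jobs m (data I))).length ≤ (m + 2) * (Nat.log 2 I.n + 1) := by
  simp only [cntL, jobs_eq, data_length, List.length_cons, List.length_map, List.length_range,
    Nat.size_eq_bits_len]
  have h1 : min I.n (data I).2 * m < 2 ^ (Nat.log 2 I.n + 1 + m) := by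
    rw [pow_add]
    have a1 := Nat.lt_pow_succ_log_self (b := 2) (by omega) I.n
    have a2 := @Nat.lt_two_pow_self m
    exact Nat.mul_lt_mul'' ((min_le_left _ _).trans_lt a1) a2
  have := Nat.size_le.2 h1
  nlinarith

end Vale.Agent.P324.QP
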