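import Vale.Agent.P324.PTMain
import Vale.Agent.P324.QPFinal

/-!
Three machines: the polynomial time program.
-/

namespace Vale.Agent.P324.QP

open Finset Vale.Agent.Lib.H24.T

section Alg

variable {α : Type} [Enc α]

@[fun_prop] theorem PT_more {R : α → List ℕ} {Ts P : α → List (List Bool)} (hR : PT R)
    (hT : PT Ts) (hP : PT P) : PT (fun a => more (R a) (Ts a) (P a)) := by
  unfold more; fun_prop

/-- The list of down-sets. -/
def dsL (R : List ℕ) (M : List (List Bool)) : List (List Bool) :=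
  famL R M (slots 3 R M) (more R (terms 3 R M) (more R (terms 3 R M) (more R (terms 3 R M)
    (more R (terms 3 R M) [R.map fun _ => false]))))

@[fun_prop] theorem PT_dsL {R : α → List ℕ} {M : α → List (List Bool)} (hR : PT R) (hM : PT M) :
    PT (fun a => dsL (R a) (M a)) := by
  unfold dsL; fun_prop

/-- The transposed matrix. -/
def trM (R : List ℕ) (M : List (List Bool)) : List (List Bool) :=
  R.map fun u => R.map fun v => gm M v u

@[fun_prop] theorem PT_trM {R : α → List ℕ} {M : α → List (List Bool)} (hR : PT R) (hM : PT M) :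
    PT (fun a => trM (R a) (M a)) := by
  unfold trM; fun_prop

/-- All intersections. -/
def famT (R : List ℕ) (Us Ds : List (List Bool)) : List (List Bool) :=
  Us.flatMap fun U => Ds.map fun D => R.map fun y => U.getD y false && D.getD y false

@[fun_prop] theorem PT_famT {R : α → List ℕ} {Us Ds : α → List (List Bool)} (hR : PT R)
    (hU : PT Us) (hD : PT Ds) : PT (fun a => famT (R a) (Us a) (Ds a)) := by
  unfold famT; fun_prop

/-- One round of the two-sided program. -/
def round2 (R : List ℕ) (M M' F Q : List (List Bool)) : List (List Bool) :=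
  round R M (slots 3 R M) F Q ++ round R M' (slots 3 R M') F Q

/-- The two-sided program. -/
def dp2L (R : List ℕ) (M M' F : List (List Bool)) : List (List Bool) :=
  (round2 R M M' F)^[(0 :: R).length] []

@[fun_prop] theorem PT_dp2L {R : α → List ℕ} {M M' F : α → List (List Bool)} (hR : PT R)
    (hM : PT M) (hM' : PT M') (hF : PT F) : PT (fun a => dp2L (R a) (M a) (M' a) (F a)) := by
  unfold dp2L
  refine PT.iterate (h := fun a Q => round2 (R a) (M a) (M' a) (F a) Q)
    (by unfold round2 round; fun_prop) (by fun_prop) (by fun_prop)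
    (fun a => sz (F a) + sz (F a)) (by fun_prop) fun a i _ => ?_
  rcases i with _ | i
  · have := sz_pos (F a)
    simp only [Function.iterate_zero, id, sz_nil]; omega
  · rw [Function.iterate_succ_apply']
    generalize (round2 (R a) (M a) (M' a) (F a))^[i] [] = Q
    have h1 : sz (round (R a) (M a) (slots 3 (R a) (M a)) (F a) Q) ≤ sz (F a) := sz_filter _ _
    have h2 : sz (round (R a) (M' a) (slots 3 (R a) (M' a)) (F a) Q) ≤ sz (F a) := sz_filter _ _
    have h3 := sz_append (round (R a) (M a) (slots 3 (R a) (M a)) (F a) Q)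
      (round (R a) (M' a) (slots 3 (R a) (M' a)) (F a) Q)
    unfold round2
    omega

/-- The decision for given padded jobs and closure matrix. -/
def core2 (R : List ℕ) (M : List (List Bool)) : Bool :=
  has R (dp2L R M (trM R M) (famT R (dsL R (trM R M)) (dsL R M))) (R.map fun _ => true)

/-- The whole algorithm. -/
def solve2 (d : List (List ℕ) × ℕ) : Bool :=
  decide (d.1.length ≤ (jobs 3 d).length) && core2 (jobs 3 d) (clos (jobs 3 d) d.1)

theorem PT_solve2 : PT solve2 := by
  unfold solve2 core2; fun_prop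

end Alg

variable {N : ℕ} {M M' : List (List Bool)}

theorem exists_term {V : Type} [Fintype V] [DecidableEq V] {lt : V → V → Prop} [DecidableRel lt]
    {key : V → ℕ} (Ls : List (Finset V × ℕ)) (h : ∀ p ∈ Ls, Adm lt p.1) :
    ∃ Ls' : List (Finset V × ℕ), (∀ p ∈ Ls', Term lt 3 key p) ∧ Ls'.length = Ls.length ∧
      Phi key Ls' = Phi key Ls := by
  induction Ls with
  | nil => exact ⟨[], by simp, rfl, rfl⟩
  | cons p Ls ih =>
    obtain ⟨Ls', h1, h2, h3⟩ := ih fun q hq => h q (List.mem_cons_of_mem _ hq)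
    obtain ⟨θ, g1, g2⟩ : ∃ θ, (θ = 0 ∨ ∃ z, θ = key z + 1) ∧ ∀ y, θ ≤ key y ↔ p.2 ≤ key y := by
      rcases (univ.filter fun y => key y < p.2).eq_empty_or_nonempty with e | e
      · refine ⟨0, Or.inl rfl, fun y => ?_⟩
        have := filter_eq_empty_iff.1 e (mem_univ y)
        omega
      · obtain ⟨z, hz, hmax⟩ := exists_max_image _ key e
        refine ⟨key z + 1, Or.inr ⟨z, rfl⟩, fun y => ⟨fun c => ?_, fun c => ?_⟩⟩
        · by_contra hn
          have := hmax y (mem_filter.2 ⟨mem_univ _, by omega⟩)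
          omega
        · have := (mem_filter.1 hz).2
          omega
    refine ⟨(p.1, θ) :: Ls', fun q hq => ?_, by simp [h2], ?_⟩
    · rcases List.mem_cons.1 hq with rfl | hq
      exacts [⟨h p List.mem_cons_self, g1⟩, h1 q hq]
    · ext y
      rw [mem_Phi_cons, mem_Phi_cons, h3, g2]

theorem dsL_complete {D : Finset (Fin N)} (h : DD (rel N M) (keyF N M) D) :
    ∃ l ∈ dsL (List.range N) M, toS N l = D := by
  obtain ⟨Ls, S, hL, hlen, hS, rfl⟩ := h
  obtain ⟨Ls', h1, h2, h3⟩ := exists_term (key := keyF N M) Ls hL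
  obtain ⟨F, hF, eF⟩ := more_complete 4 Ls' h1 (h2 ▸ hlen)
  obtain ⟨s, hs, es⟩ : ∃ s ∈ ((List.range N).map fun _ => false) :: slots 3 (List.range N) M,
      toS N s = S := by
    rcases hS with e | hS
    · exact ⟨_, List.mem_cons_self, by rw [e, toS_false]⟩
    · obtain ⟨s, hs, rfl⟩ := slots_complete hS
      exact ⟨_, List.mem_cons_of_mem _ hs, rfl⟩
  refine ⟨_, List.mem_flatMap.2 ⟨_, List.mem_cons_self, List.mem_flatMap.2
    ⟨F, hF, List.mem_map.2 ⟨s, hs, rfl⟩⟩⟩, ?_⟩
  ext y
  rw [mem_toS_map, mem_sdiff, ← h3, ← eF, ← es, up, mem_union, ← toS_sucL, mem_toS, mem_toS,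
    mem_toS, getD_range _ _ y.2]
  simp

theorem famT_complete {X : Finset (Fin N)}
    (h : Fam2 (rel N M) (rel N M') (keyF N M) (keyF N M') X) :
    ∃ l ∈ famT (List.range N) (dsL (List.range N) M') (dsL (List.range N) M), toS N l = X := by
  obtain ⟨U, D, hU, hD, rfl⟩ := h
  obtain ⟨u, hu, rfl⟩ := dsL_complete hU
  obtain ⟨d, hd, rfl⟩ := dsL_complete hD
  refine ⟨_, List.mem_flatMap.2 ⟨u, hu, List.mem_map.2 ⟨d, hd, rfl⟩⟩, ?_⟩
  ext y
  rw [mem_toS_map, mem_inter, mem_toS, mem_toS, Bool.and_eq_true]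

theorem round2_sound (rev : ∀ a b, rel N M' a b ↔ rel N M b a)
    (tr : ∀ a b c, rel N M a b → rel N M b c → rel N M a c) (F : List (List Bool)) (i : ℕ) :
    ∀ X ∈ (round2 (List.range N) M M' F)^[i] [], Feas (rel N M) 3 (toS N X) := by
  induction i with
  | zero => simp
  | succ i ih =>
    intro X hX
    rw [Function.iterate_succ_apply', round2, List.mem_append, mem_round, mem_round] at hX
    rcases hX with ⟨-, e | ⟨S, hS, h1, ⟨l, hl, e⟩, l', hl', e'⟩⟩ |
      ⟨-, e | ⟨S, hS, h1, ⟨l, hl, e⟩, l', hl', e'⟩⟩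
    · rw [e]; exact feas_empty
    · obtain ⟨a, τ₁, g1⟩ := e ▸ ih l hl
      obtain ⟨b, τ₂, g2⟩ := e' ▸ ih l' hl'
      obtain ⟨τ, g, -⟩ := glue tr hS h1 g1 g2
      exact ⟨_, τ, g⟩
    · rw [e]; exact feas_empty
    · obtain ⟨a, τ₁, g1⟩ := e ▸ (ih l hl).swap rev
      obtain ⟨b, τ₂, g2⟩ := e' ▸ (ih l' hl').swap rev
      have tr' : ∀ a b c, rel N M' a b → rel N M' b c → rel N M' a c := fun a b c h1 h2 =>
        (rev a c).2 (tr c b a ((rev b c).1 h2) ((rev a b).1 h1))
      obtain ⟨τ, g, -⟩ := glue tr' hS h1 g1 g2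
      exact Feas.swap (fun a b => (rev b a).symm) ⟨_, τ, g⟩

theorem round2_complete {F : List (List Bool)} {G : Finset (Fin N) → Prop}
    (hF : ∀ X, G X → ∃ l ∈ F, toS N l = X) (i : ℕ) : ∀ X, Dp2 (rel N M) (rel N M') G i X →
    ∃ l ∈ (round2 (List.range N) M M' F)^[i] [], toS N l = X := by
  induction i with
  | zero => intro X h; exact h.elim
  | succ i ih =>
    intro X h
    obtain ⟨l, hl, rfl⟩ := hF X h.1
    refine ⟨l, ?_, rfl⟩
    rw [Function.iterate_succ_apply', round2, List.mem_append, mem_round, mem_round]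
    rcases h.2 with e | ⟨S, hS, h1, h2, h3⟩ | ⟨S, hS, h1, h2, h3⟩
    · exact Or.inl ⟨hl, Or.inl e⟩
    · exact Or.inl ⟨hl, Or.inr ⟨S, hS, h1, ih _ h2, ih _ h3⟩⟩
    · exact Or.inr ⟨hl, Or.inr ⟨S, hS, h1, ih _ h2, ih _ h3⟩⟩

theorem core2_iff (tr : ∀ a b c, rel N M a b → rel N M b c → rel N M a c) :
    core2 (List.range N) M = true ↔ Feas (rel N M) 3 univ := by
  have rev : ∀ a b, rel N (trM (List.range N) M) a b ↔ rel N M b a := fun a b => by
    simp only [rel, trM, gm_mat _ a.2 b.2]
  rw [core2, has_iff, toS_true, dp2L, List.length_cons, List.length_range]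
  constructor
  · rintro ⟨l, hl, e⟩
    exact e ▸ round2_sound rev tr _ _ l hl
  · intro h
    have irr : ∀ a, ¬ rel N M a a := fun a ha => by
      obtain ⟨l, τ, hτ⟩ := h
      have := hτ.2.2 a (mem_univ _) a (mem_univ _) ha
      omega
    have := dp2_univ (gt := rel N (trM (List.range N) M)) (key := keyF N M)
      (key' := keyF N (trM (List.range N) M))
      (B := univ.sup (keyF N M) + univ.sup (keyF N (trM (List.range N) M)) + 1)
      ⟨rev, tr, keyF_anti tr irr, keyF_anti (fun a b c h1 h2 =>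
        (rev _ _).2 (tr _ _ _ ((rev _ _).1 h2) ((rev _ _).1 h1))) fun a ha => irr a ((rev _ _).1 ha),
        fun v => by have := le_sup (f := keyF N M) (mem_univ v); omega,
        fun v => by have := le_sup (f := keyF N (trM (List.range N) M)) (mem_univ v); omega,
        keyF_inj, keyF_inj⟩ h
    rw [Fintype.card_fin] at this
    exact round2_complete (fun X hX => famT_complete hX) _ _ this

open Classical in
theorem PT_answer : PT (answer 3) := by
  refine (PT_solve2.comp (PT_data PT.id)).of_eq fun I => ?_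
  rw [answer, Bool.eq_iff_iff, decide_eq_true_iff, sched_iff (by omega), solve2, Bool.and_eq_true,
    decide_eq_true_iff, jobs_eq, data_length, List.length_range, core2_iff (clos_spec _).2.2]
  rfl

open Turing Function Vale.Agent.Lib.H24 in
theorem exists_tm' (p : BP) : ∃ (tm : FinTM2) (ein : tm.Γ tm.k₀ ≃ Bool)
    (eout : tm.Γ tm.k₁ ≃ Bool), (∀ k, Finite (tm.Γ k)) ∧ ∀ x y t, Run p x y t →
      Nonempty (TM2OutputsInTime tm (x.map ein.invFun) (some (y.map eout.invFun)) (t + 2)) := by
  let P : BP := .seq p (clr 1)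
  refine ⟨toFinTM2 (P.map (clamp P.bound)) (clamp P.bound 0) (clamp P.bound 0), Equiv.refl _,
    Equiv.refl _, fun _ => inferInstanceAs (Finite Bool), fun x y t h => ?_⟩
  obtain ⟨t', v', ht, h1⟩ := h none
  have h2 : Exec P none (T.W x [] [] []) (t' + 1) none (T.W y [] [] []) :=
    h1.seq (Exec.whileNil rfl)
  have hW : ∀ z, T.W z [] [] [] = Function.update (fun _ => []) 0 z := by
    intro z
    simp only [T.W, scons_nil]
    rw [← update_scons_zero [], scons_nil]
  have h3 := exec_clamp P.bound h2 le_rfl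
  rw [hW, hW, update_clamp (Nat.zero_le _), update_clamp (Nat.zero_le _)] at h3
  have k1 := toFinTM2_outputs _ _ _ _ _ (t' + 1) (t + 2) (by omega) h3
  have e1 : ∀ w : List Bool, List.map (Equiv.refl Bool).invFun w = w := fun w => List.map_id w
  rw [← e1 x, ← e1 y] at k1
  exact k1

open Turing in
theorem machine : ∃ M : TM2ComputableInPolyTime encInst encBool (answer 3),
    ∀ k, Finite (M.tm.Γ k) := by
  obtain ⟨p, t, ⟨k, hk⟩, hp⟩ := PT_answer
  obtain ⟨tm, ein, eout, h1, h2⟩ := exists_tm' p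
  have h3 : ∀ I, Nonempty (TM2OutputsInTime tm ((encInst I).map ein.invFun)
      (some ((encBool (answer 3 I)).map eout.invFun))
      (((Polynomial.X + 2) ^ k + 2 : Polynomial ℕ).eval (encInst I).length)) := by
    intro I
    obtain ⟨h⟩ := h2 _ _ _ ((hp I).mono (hk I))
    rw [← encInst_code, ← encBool_code, sz, ← encInst_code] at h
    refine ⟨?_⟩
    simpa using h
  exact ⟨⟨⟨tm, ein, eout⟩, (Polynomial.X + 2) ^ k + 2, fun I => (h3 I).some⟩, h1⟩

end Vale.Agent.P324.QP
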