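import Vale.Agent.P324.QPLayer

/-!
Completeness of the dynamic program on the layered family.
-/

namespace Vale.Agent.P324.QP

open Finset

variable {V : Type} [Fintype V] [DecidableEq V] {lt : V → V → Prop} [DecidableRel lt] {m : ℕ}
  {key : V → ℕ} {B : ℕ}

/-- The family of job sets used by the dynamic program. -/
def Fam (lt : V → V → Prop) [DecidableRel lt] (m : ℕ) (key : V → ℕ) (X : Finset V) : Prop :=
  ∃ (U : Finset V) (Ls : List (Finset V × ℕ)) (S : Finset V),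
    (U = univ ∨ ∃ S₀, Slot lt m S₀ ∧ U = suc lt S₀) ∧ (∀ p ∈ Ls, Term lt m key p) ∧
    Ls.length ≤ Nat.log 2 (Fintype.card V) + 1 ∧ (S = ∅ ∨ Slot lt m S) ∧
    X = (U ∩ Phi key Ls) \ up lt S

/-- The invariant of the recursion. -/
structure Inv (lt : V → V → Prop) [DecidableRel lt] (m : ℕ) (key : V → ℕ) (B : ℕ)
    (U : Finset V) (Ls : List (Finset V × ℕ)) (S X : Finset V) : Prop where
  hU : U = univ ∨ ∃ S₀, Slot lt m S₀ ∧ U = suc lt S₀
  hL : ∀ p ∈ Ls, Term lt m key p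
  hlen : Ls.length ≤ Nat.log 2 (Fintype.card V) + 1
  hS : S = ∅ ∨ Slot lt m S
  hX : X = (U ∩ Phi key Ls) \ up lt S
  star : ∀ w ∈ S, w ∈ Phi key Ls → ∀ l τ, Sched lt m X l τ → ∀ y ∈ X, (∀ v ∈ X, ¬ lt y v) →
    y ∉ anc lt S → (∀ u ∈ X, lt u w → τ u < τ y) → rk key B Ls w < rk key B Ls y
  hanc : U ∩ anc lt S ⊆ Phi key Ls
  size : ∀ a, (X.filter fun y => a ≤ lay key Ls y).card * 2 ^ a ≤ Fintype.card V

theorem Inv.fam {U Ls S X} (h : Inv lt m key B U Ls S X) : Fam lt m key X :=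
  ⟨U, Ls, S, h.hU, h.hL, h.hlen, h.hS, h.hX⟩

theorem Inv.anti {U Ls S X} (h : Inv lt m key B U Ls S X) : ∀ u ∈ S, ∀ v ∈ S, ¬ lt u v := by
  rcases h.hS with rfl | h
  · simp
  · exact h.2

theorem Inv.upU (tr : ∀ a b c, lt a b → lt b c → lt a c) {U Ls S X}
    (h : Inv lt m key B U Ls S X) {u v : V} (hu : u ∈ U) (huv : lt u v) : v ∈ U := by
  rcases h.hU with rfl | ⟨S₀, -, rfl⟩
  · exact mem_univ _
  · obtain ⟨s, hs, hsu⟩ := mem_suc.1 hu
    exact mem_suc.2 ⟨s, hs, tr _ _ _ hsu huv⟩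

theorem Inv.mem {U Ls S X} (h : Inv lt m key B U Ls S X) {y : V} :
    y ∈ X ↔ y ∈ U ∧ y ∈ Phi key Ls ∧ y ∉ up lt S := by
  rw [h.hX, mem_sdiff, mem_inter, and_assoc]

theorem Inv.of_anc (tr : ∀ a b c, lt a b → lt b c → lt a c) {U Ls S X}
    (h : Inv lt m key B U Ls S X) {y : V} (hU : y ∈ U) (hy : y ∈ anc lt S) : y ∈ X := by
  refine h.mem.2 ⟨hU, h.hanc (mem_inter.2 ⟨hU, hy⟩), fun hn => ?_⟩
  obtain ⟨s, hs, hys⟩ := mem_anc.1 hy
  rcases mem_up.1 hn with c | ⟨s', hs', c⟩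
  · exact h.anti y c s hs hys
  · exact h.anti s' hs' s hs (tr _ _ _ c hys)

theorem inv_single {U A : Finset V} (hU : U = univ ∨ ∃ S₀, Slot lt m S₀ ∧ U = suc lt S₀)
    (hA : A = univ ∨ ∃ S, Slot lt m S ∧ A = anc lt S) :
    Inv lt m key B U [(A, 0)] ∅ (U ∩ A) := by
  refine ⟨hU, by simpa using ⟨hA, Or.inl rfl⟩, by simp, Or.inl rfl, ?_, by simp, ?_, fun a => ?_⟩
  · ext y; simp [mem_Phi, mem_up]
  · intro y hy; simp at hy
  · rcases a with _ | a
    · simpa using card_le_univ _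
    · have : ((U ∩ A).filter fun y => a + 1 ≤ lay key [(A, 0)] y) = ∅ :=
        filter_eq_empty_iff.2 fun y hy => by
          have := lay_le_of (key := key) (Ls := [(A, 0)]) (y := y) (i := 0) (by simp)
            ⟨(mem_inter.1 hy).2, Nat.zero_le _⟩
          omega
      rw [this]; simp

theorem Inv.reset (tr : ∀ a b c, lt a b → lt b c → lt a c) {U Ls S X}
    (h : Inv lt m key B U Ls S X) (hne : X.Nonempty) (hall : ∀ y ∈ X, y ∈ anc lt S) :
    Inv lt m key B U [(anc lt S, 0)] ∅ X := by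
  have hS : Slot lt m S := by
    rcases h.hS with rfl | h'
    · obtain ⟨y, hy⟩ := hne
      simpa using hall y hy
    · exact h'
  have : X = U ∩ anc lt S := by
    ext y
    exact ⟨fun hy => mem_inter.2 ⟨(h.mem.1 hy).1, hall y hy⟩,
      fun hy => h.of_anc tr (mem_inter.1 hy).1 (mem_inter.1 hy).2⟩
  rw [this]
  exact inv_single h.hU (Or.inr ⟨S, hS, rfl⟩)

omit [Fintype V] [DecidableRel lt] in
theorem exists_best {X : Finset V} {l : ℕ} {τ₀ : V → ℕ} (h0 : Sched lt m X l τ₀) {z : V}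
    (hz : z ∈ X) (r : V → ℕ) : ∃ τ, Sched lt m X l τ ∧ (∀ τ', Sched lt m X l τ' → τ' z ≤ τ z) ∧
      ∀ τ', Sched lt m X l τ' → τ' z = τ z →
        ∑ w ∈ X.filter (fun v => τ v = τ z), r w ≤ ∑ w ∈ X.filter (fun v => τ' v = τ z), r w := by
  classical
  have e1 : ∃ k, ∃ τ, Sched lt m X l τ ∧ l - τ z = k := ⟨_, τ₀, h0, rfl⟩
  obtain ⟨τ₁, h1, k1⟩ := Nat.find_spec e1
  have e2 : ∃ k, ∃ τ, Sched lt m X l τ ∧ τ z = τ₁ z ∧
      ∑ w ∈ X.filter (fun v => τ v = τ₁ z), r w = k := ⟨_, τ₁, h1, rfl, rfl⟩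
  obtain ⟨τ, h2, k2, k3⟩ := Nat.find_spec e2
  refine ⟨τ, h2, fun τ' h' => ?_, fun τ' h' k' => ?_⟩
  · have := Nat.find_min' e1 ⟨τ', h', rfl⟩
    have := h'.1 z hz
    have := h1.1 z hz
    omega
  · rw [k2] at k' ⊢
    rw [k3]
    exact Nat.find_min' e2 ⟨τ', h', k', rfl⟩

theorem Inv.step (hm : 0 < m) (tr : ∀ a b c, lt a b → lt b c → lt a c)
    (hk : ∀ a b, lt a b → key b < key a) (hB : ∀ v, key v < B) (hi : Function.Injective key)
    {U Ls S₁ X} (h : Inv lt m key B U Ls S₁ X) (hF : Feas lt m X)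
    (hne : (X \ anc lt S₁).Nonempty) :
    ∃ S, Slot lt m S ∧ S ⊆ X ∧ (∃ Ls', Inv lt m key B U Ls' S (X \ up lt S)) ∧
      Feas lt m (X \ up lt S) ∧ Inv lt m key B (suc lt S) Ls S₁ (X ∩ suc lt S) ∧
      Feas lt m (X ∩ suc lt S) := by
  obtain ⟨z, hz, hzmin⟩ := exists_min_image _ (rk key B Ls) hne
  obtain ⟨hzX, hzS⟩ := mem_sdiff.1 hz
  have hmin : ∀ y ∈ X, rk key B Ls y < rk key B Ls z → y ∈ anc lt S₁ := fun y hy hlt => by
    by_contra hn
    have := hzmin y (mem_sdiff.2 ⟨hy, hn⟩)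
    omega
  have sink : ∀ v ∈ X, ¬ lt z v := fun v hv hzv => by
    obtain ⟨s, hs, hvs⟩ := mem_anc.1 (hmin v hv (rk_anti tr hk hB h.hL hzv))
    exact hzS (mem_anc.2 ⟨s, hs, tr _ _ _ hzv hvs⟩)
  obtain ⟨Ls', hL', hlen', hsub', hz', hP', hsz'⟩ := update hB hi h.hL h.hlen h.hS
    (fun y hy => (h.mem.1 hy).2.1) h.size hzX hzS hmin
  obtain ⟨l, τ₀, h0⟩ := hF
  obtain ⟨τ, hτ, hmax, hpot⟩ := exists_best h0 hzX (rk key B Ls')
  have hs := hτ.1 z hzX
  have hlater := hτ.later tr hzX sink hmax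
  have hSl := hτ.slot hs
  generalize hSdef : (X.filter fun v => τ v = τ z) = S at hlater hSl hpot
  have hSm : ∀ v, v ∈ S ↔ v ∈ X ∧ τ v = τ z := fun v => by rw [← hSdef, mem_filter]
  have hSX : S ⊆ X := fun v hv => ((hSm v).1 hv).1
  have hzS' : z ∈ S := (hSm z).2 ⟨hzX, rfl⟩
  have hM : X ∩ suc lt S = X.filter fun v => τ z < τ v := by
    ext v
    rw [mem_inter, mem_filter]
    refine ⟨fun ⟨h1, h2⟩ => ⟨h1, ?_⟩, fun ⟨h1, h2⟩ => ⟨h1, hlater v h1 h2⟩⟩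
    obtain ⟨s, hs, hsv⟩ := mem_suc.1 h2
    have := hτ.2.2 s (hSX hs) v h1 hsv
    have := ((hSm s).1 hs).2
    omega
  have hL : X \ up lt S = X.filter fun v => τ v < τ z := by
    ext v
    rw [mem_sdiff, mem_filter, up, mem_union, not_or]
    refine ⟨fun ⟨h1, h2, h3⟩ => ⟨h1, ?_⟩, fun ⟨h1, h2⟩ => ⟨h1, fun h3 => ?_, fun h3 => ?_⟩⟩
    · rcases lt_trichotomy (τ v) (τ z) with c | c | c
      · exact c
      · exact absurd ((hSm v).2 ⟨h1, c⟩) h2
      · exact absurd (hlater v h1 c) h3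
    · have := ((hSm v).1 h3).2; omega
    · have := mem_filter.1 (hM ▸ mem_inter.2 ⟨h1, h3⟩); omega
  have sL : Sched lt m (X \ up lt S) (τ z) τ := hL ▸ hτ.early hs
  have sM : Sched lt m (X ∩ suc lt S) (l - τ z - 1) (fun v => τ v - τ z - 1) := hM ▸ hτ.late _
  have hzL : z ∉ X \ up lt S := fun hn => (mem_sdiff.1 hn).2 (mem_up.2 (Or.inl hzS'))
  have hLsub : X \ up lt S ⊆ X.erase z := fun y hy =>
    mem_erase.2 ⟨fun e => hzL (e ▸ hy), (mem_sdiff.1 hy).1⟩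
  have hSU : ∀ v ∈ suc lt S, v ∈ U := fun v hv => by
    obtain ⟨s, hs, hsv⟩ := mem_suc.1 hv
    exact h.upU tr (h.mem.1 (hSX hs)).1 hsv
  have tri : ∀ v ∈ X, v ∈ X \ up lt S ∨ v ∈ S ∨ v ∈ X ∩ suc lt S := fun v hv => by
    by_cases c : v ∈ up lt S
    · rcases mem_union.1 c with c | c
      · exact Or.inr (Or.inl c)
      · exact Or.inr (Or.inr (mem_inter.2 ⟨hv, c⟩))
    · exact Or.inl (mem_sdiff.2 ⟨hv, c⟩)
  refine ⟨S, hSl, hSX, ⟨Ls', h.hU, hL', hlen', Or.inr hSl, ?_, ?_, ?_, fun a => ?_⟩, ⟨_, _, sL⟩,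
    ⟨Or.inr ⟨S, hSl, rfl⟩, h.hL, h.hlen, h.hS, ?_, ?_, ?_, fun a => ?_⟩, ⟨_, _, sM⟩⟩
  · ext y
    rw [mem_sdiff, mem_sdiff, mem_inter]
    refine ⟨fun hy => ⟨⟨(h.mem.1 hy.1).1, hsub' (hLsub (mem_sdiff.2 hy))⟩, hy.2⟩,
      fun ⟨⟨h1, h2⟩, h3⟩ => ⟨?_, h3⟩⟩
    rcases hP' y h2 with c | ⟨c, d⟩
    · exact h.of_anc tr h1 c
    · refine h.mem.2 ⟨h1, c, fun hn => h3 ?_⟩
      obtain ⟨w, hw, hwy⟩ : ∃ w ∈ S₁, w = y ∨ lt w y := by
        rcases mem_up.1 hn with e | ⟨s, hs, e⟩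
        · exact ⟨y, e, Or.inl rfl⟩
        · exact ⟨s, hs, Or.inr e⟩
      have g1 : w ∈ Phi key Ls ∧ rk key B Ls y ≤ rk key B Ls w := by
        rcases hwy with rfl | e
        · exact ⟨c, le_rfl⟩
        · exact ⟨Phi_down tr hk h.hL e c, (rk_anti tr hk hB h.hL e).le⟩
      obtain ⟨u, hu, huw, hτu⟩ : ∃ u ∈ X, lt u w ∧ τ z ≤ τ u := by
        by_contra hc
        push Not at hc
        have := h.star w hw g1.1 l τ hτ z hzX sink hzS hc
        omega
      have huy : lt u y := by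
        rcases hwy with rfl | e
        · exact huw
        · exact tr _ _ _ huw e
      rcases hτu.eq_or_lt with e | e
      · exact mem_up.2 (Or.inr ⟨u, (hSm u).2 ⟨hu, e.symm⟩, huy⟩)
      · obtain ⟨s, hs, hsu⟩ := mem_suc.1 (hlater u hu e)
        exact mem_up.2 (Or.inr ⟨s, hs, tr _ _ _ hsu huy⟩)
  · intro w hw hwP a τ₁ h1 y hy hysink hyS hpre
    have hwz : w ≠ z := fun e => hz' (e ▸ hwP)
    have ha : a = τ z := Nat.eq_of_mul_eq_mul_left hm (h1.card.symm.trans sL.card)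
    obtain ⟨σ, hσ, e1, e2, e3⟩ := glue tr hSl hSX h1 sM
    have hl : a + 1 + (l - τ z - 1) = l := by omega
    rw [hl] at hσ
    have hyX := (mem_sdiff.1 hy).1
    have hyS' : y ∉ S := fun hn => (mem_sdiff.1 hy).2 (mem_up.2 (Or.inl hn))
    have hy1 := h1.1 y hy
    have hsw := hσ.swap hyX (hSX hw) (by rw [e1 y hy, e2 w hw]; exact hy1)
      (fun v hv hyv => by
        rcases tri v hv with c | c | c
        · exact absurd hyv (hysink v c)
        · exact absurd (mem_anc.2 ⟨v, c, hyv⟩) hyS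
        · rw [e2 w hw, e3 v c]; omega)
      (fun u hu huw => by
        rcases tri u hu with c | c | c
        · rw [e1 u c, e1 y hy]; exact hpre u c huw
        · exact absurd huw (hSl.2 u c w hw)
        · obtain ⟨s, hs, hsu⟩ := mem_suc.1 (mem_inter.1 c).2
          exact absurd (tr _ _ _ hsu huw) (hSl.2 s hs w hw))
    have hzy : z ≠ y := fun e => hzL (e ▸ hy)
    have h2 := hpot _ hsw (by
      rw [Equiv.swap_apply_of_ne_of_ne hzy hwz.symm, e2 z hzS', ha])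
    have h3 : (X.filter fun v => σ v = τ z) = S := by
      ext v
      rw [mem_filter]
      refine ⟨fun ⟨g1, g2⟩ => ?_, fun g => ⟨hSX g, by rw [e2 v g, ha]⟩⟩
      rcases tri v g1 with c | c | c
      · have := h1.1 v c
        rw [e1 v c] at g2; omega
      · exact c
      · rw [e3 v c] at g2; omega
    rw [swap_filter hyX (hSX hw), h3, sum_map, ← add_sum_erase _ _ hw, ← add_sum_erase _ _ hw,
      sum_congr rfl (s₁ := S.erase w)
        (f := fun v => rk key B Ls' ((Equiv.swap y w).toEmbedding v)) (g := fun v => rk key B Ls' v)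
        (fun v hv => by
          have := mem_erase.1 hv
          have hvy : v ≠ y := fun e => hyS' (e ▸ this.2)
          simp only [Equiv.coe_toEmbedding]
          rw [Equiv.swap_apply_of_ne_of_ne hvy this.1])] at h2
    simp only [Equiv.coe_toEmbedding, Equiv.swap_apply_right] at h2
    have := rk_ne (Ls := Ls') hB hi (w := w) (y := y) (fun e => hyS' (e ▸ hw))
    omega
  · intro y hy
    obtain ⟨h1, h2⟩ := mem_inter.1 hy
    obtain ⟨s, hs, hys⟩ := mem_anc.1 h2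
    have g := h.mem.1 (hSX hs)
    refine hsub' (mem_erase.2 ⟨fun e => sink s (hSX hs) (e ▸ hys), h.mem.2
      ⟨h1, Phi_down tr hk h.hL hys g.2.1, fun hn => g.2.2 ?_⟩⟩)
    rcases mem_up.1 hn with c | ⟨s', hs', c⟩
    · exact mem_up.2 (Or.inr ⟨y, c, hys⟩)
    · exact mem_up.2 (Or.inr ⟨s', hs', tr _ _ _ c hys⟩)
  · exact le_trans (Nat.mul_le_mul_right _ (card_le_card (filter_subset_filter _ hLsub))) (hsz' a)
  · ext y
    rw [mem_inter, mem_sdiff, mem_inter, h.mem]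
    exact ⟨fun ⟨⟨_, h2, h3⟩, h4⟩ => ⟨⟨h4, h2⟩, h3⟩, fun ⟨⟨h4, h2⟩, h3⟩ => ⟨⟨hSU y h4, h2, h3⟩, h4⟩⟩
  · intro w hw hwP b τ₂ h2 y hy hysink hyS hpre
    obtain ⟨σ, hσ, e1, e2, e3⟩ := glue tr hSl hSX sL h2
    obtain ⟨hyX, hyS'⟩ := mem_inter.1 hy
    refine h.star w hw hwP _ σ hσ y hyX (fun v hv hyv => ?_) hyS (fun u hu huw => ?_)
    · obtain ⟨s, hs, hsy⟩ := mem_suc.1 hyS'
      exact hysink v (mem_inter.2 ⟨hv, mem_suc.2 ⟨s, hs, tr _ _ _ hsy hyv⟩⟩) hyv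
    · rw [e3 y hy]
      rcases tri u hu with c | c | c
      · have := sL.1 u c
        rw [e1 u c]; omega
      · rw [e2 u c]; omega
      · have := hpre u c huw
        rw [e3 u c]; omega
  · intro y hy
    exact h.hanc (mem_inter.2 ⟨hSU y (mem_inter.1 hy).1, (mem_inter.1 hy).2⟩)
  · exact le_trans (Nat.mul_le_mul_right _ (card_le_card
      (filter_subset_filter _ inter_subset_left))) (h.size a)

theorem Inv.dp (hm : 0 < m) (tr : ∀ a b c, lt a b → lt b c → lt a c)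
    (hk : ∀ a b, lt a b → key b < key a) (hB : ∀ v, key v < B) (hi : Function.Injective key)
    (i : ℕ) : ∀ {U Ls S₁ X}, Inv lt m key B U Ls S₁ X → Feas lt m X → X.card < i →
      Dp lt m (Fam lt m key) i X := by
  induction i with
  | zero => intro _ _ _ _ _ _ h; omega
  | succ i ih =>
    intro U Ls S₁ X h hF hc
    refine ⟨h.fam, ?_⟩
    rcases X.eq_empty_or_nonempty with e | hne
    · exact Or.inl e
    right
    obtain ⟨Ls, S₁, h, hne'⟩ : ∃ Ls S₁, Inv lt m key B U Ls S₁ X ∧ (X \ anc lt S₁).Nonempty := by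
      by_cases c : (X \ anc lt S₁).Nonempty
      · exact ⟨Ls, S₁, h, c⟩
      · refine ⟨_, _, h.reset tr hne fun y hy => ?_, ?_⟩
        · by_contra hn
          exact c ⟨y, mem_sdiff.2 ⟨hy, hn⟩⟩
        · obtain ⟨y, hy⟩ := hne
          exact ⟨y, by simpa using hy⟩
    obtain ⟨S, hS, hSX, ⟨Ls', h1⟩, f1, h2, f2⟩ := h.step hm tr hk hB hi hF hne'
    obtain ⟨s, hs⟩ : S.Nonempty := card_pos.1 (by rw [hS.1]; exact hm)
    refine ⟨S, hS, hSX, ih h1 f1 ?_, ih h2 f2 ?_⟩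
    · have := card_lt_card (s := X \ up lt S) (t := X) ⟨sdiff_subset, fun hn =>
        (mem_sdiff.1 (hn (hSX hs))).2 (mem_up.2 (Or.inl hs))⟩
      omega
    · have := card_lt_card (s := X ∩ suc lt S) (t := X) ⟨inter_subset_left, fun hn => by
        obtain ⟨s', hs', e⟩ := mem_suc.1 (mem_inter.1 (hn (hSX hs))).2
        exact hS.2 s' hs' s hs e⟩
      omega

theorem dp_iff (hm : 0 < m) (tr : ∀ a b c, lt a b → lt b c → lt a c)
    (hk : (∀ a, ¬ lt a a) → ∀ a b, lt a b → key b < key a) (hi : Function.Injective key) :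
    Dp lt m (Fam lt m key) (Fintype.card V + 1) univ ↔ Feas lt m (univ : Finset V) := by
  refine ⟨fun h => h.feas tr, fun h => ?_⟩
  have irr : ∀ a, ¬ lt a a := fun a ha => by
    obtain ⟨l, τ, hτ⟩ := h
    have := hτ.2.2 a (mem_univ _) a (mem_univ _) ha
    omega
  have hB : ∀ v, key v < univ.sup key + 1 := fun v => Nat.lt_succ_of_le (le_sup (mem_univ v))
  have := inv_single (lt := lt) (m := m) (key := key) (B := univ.sup key + 1) (U := univ)
    (A := univ) (Or.inl rfl) (Or.inl rfl)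
  rw [inter_self] at this
  exact this.dp hm tr (hk irr) hB hi _ h (by simp)

end Vale.Agent.P324.QP
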