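import Vale.Agent.P324.PTNext
import Vale.Agent.P324.QPMain

/-!
Three machines: the two-sided dynamic program is complete on a family of polynomial size.
-/

namespace Vale.Agent.P324.QP

open Finset

variable {V : Type} [Fintype V] [DecidableEq V] {lt gt : V → V → Prop} [DecidableRel lt]
  [DecidableRel gt] {key key' : V → ℕ} {B : ℕ}

/-- The down-sets used by the program. -/
def DD (lt : V → V → Prop) [DecidableRel lt] (key : V → ℕ) (D : Finset V) : Prop :=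
  ∃ (Ls : List (Finset V × ℕ)) (S : Finset V), (∀ p ∈ Ls, Adm lt p.1) ∧ Ls.length ≤ 4 ∧
    (S = ∅ ∨ Slot lt 3 S) ∧ D = Phi key Ls \ up lt S

theorem DD.down (tr : ∀ a b c, lt a b → lt b c → lt a c) (hk : ∀ a b, lt a b → key b < key a)
    {D : Finset V} (h : DD lt key D) {y y' : V} (e : lt y y') (h' : y' ∈ D) : y ∈ D := by
  obtain ⟨Ls, S, h1, -, -, rfl⟩ := h
  obtain ⟨g1, g2⟩ := mem_sdiff.1 h'
  refine mem_sdiff.2 ⟨Phi_down' tr hk h1 e g1, fun hn => g2 (mem_up.2 (Or.inr ?_))⟩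
  rcases mem_up.1 hn with c | ⟨s, hs, c⟩
  exacts [⟨y, c, e⟩, ⟨s, hs, tr _ _ _ c e⟩]

theorem Adm.dd {A : Finset V} (h : Adm lt A) : DD lt key A :=
  ⟨[(A, 0)], ∅, by simpa using h, by simp, Or.inl rfl, by ext y; simp [mem_Phi, mem_up]⟩

/-- The family of job sets. -/
def Fam2 (lt gt : V → V → Prop) [DecidableRel lt] [DecidableRel gt] (key key' : V → ℕ)
    (X : Finset V) : Prop := ∃ U D, DD gt key' U ∧ DD lt key D ∧ X = U ∩ D

/-- The two-sided dynamic program. -/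
def Dp2 (lt gt : V → V → Prop) [DecidableRel lt] [DecidableRel gt] (F : Finset V → Prop) :
    ℕ → Finset V → Prop
  | 0, _ => False
  | i + 1, X => F X ∧ (X = ∅ ∨
      (∃ S, Slot lt 3 S ∧ S ⊆ X ∧ Dp2 lt gt F i (X \ up lt S) ∧ Dp2 lt gt F i (X ∩ suc lt S)) ∨
      ∃ S, Slot gt 3 S ∧ S ⊆ X ∧ Dp2 lt gt F i (X \ up gt S) ∧ Dp2 lt gt F i (X ∩ suc gt S))

theorem Dp2.symm {F F' : Finset V → Prop} (hF : ∀ X, F X → F' X) {i : ℕ} {X : Finset V}
    (h : Dp2 lt gt F i X) : Dp2 gt lt F' i X := by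
  induction i generalizing X with
  | zero => exact h.elim
  | succ i ih =>
    refine ⟨hF X h.1, ?_⟩
    rcases h.2 with e | ⟨S, h1, h2, h3, h4⟩ | ⟨S, h1, h2, h3, h4⟩
    · exact Or.inl e
    · exact Or.inr (Or.inr ⟨S, h1, h2, ih h3, ih h4⟩)
    · exact Or.inr (Or.inl ⟨S, h1, h2, ih h3, ih h4⟩)

omit [Fintype V] [DecidableEq V] [DecidableRel lt] [DecidableRel gt] in
theorem Feas.swap (hgt : ∀ a b, gt a b ↔ lt b a) {m : ℕ} {X : Finset V} (h : Feas lt m X) :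
    Feas gt m X := by
  obtain ⟨l, τ, h1, h2, h3⟩ := h
  refine ⟨l, fun v => l - 1 - τ v, fun v hv => ?_, fun t ht => ?_, fun u hu v hv huv => ?_⟩
  · have := h1 v hv; simp only; omega
  · rw [← h2 (l - 1 - t) (by omega)]
    congr 1
    refine filter_congr fun v hv => ?_
    have := h1 v hv
    simp only; omega
  · have := h3 v hv u hu ((hgt u v).1 huv)
    have := h1 u hu
    simp only; omega

/-- The state of the recursion. -/
structure St (lt : V → V → Prop) [DecidableRel lt] (key : V → ℕ) (U X : Finset V) (z : V)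
    (A : Finset V) (G : List (Finset V × ℕ)) : Prop where
  hA : Adm lt A
  zA : z ∈ A
  hG : ∀ p ∈ G, Adm lt p.1
  len : G.length ≤ 3
  hz : z ∈ X
  cov : X.erase z ⊆ Phi key ((A, key z + 1) :: G)
  zP : z ∉ Phi key G
  excl : ∀ l τ, Sched lt 3 X l τ → (∀ τ', Sched lt 3 X l τ' → τ' z ≤ τ z) → ∀ y ∈ U,
    y ∈ Phi key ((A, key z + 1) :: G) → y ∉ X → y ∈ up lt (X.filter fun v => τ v = τ z)
  fam : ∃ D, DD lt key D ∧ X = U ∩ D

theorem St.start (hi : Function.Injective key) {U A : Finset V} (hA : Adm lt A)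
    (hne : (U ∩ A).Nonempty) : ∃ z, St lt key U (U ∩ A) z A [] := by
  obtain ⟨z, hz, hmin⟩ := exists_min_image _ key hne
  refine ⟨z, hA, (mem_inter.1 hz).2, by simp, by simp, hz, fun y hy => ?_, not_mem_Phi_nil,
    fun _ _ _ _ y h1 h2 h3 => ?_, A, hA.dd, rfl⟩
  · obtain ⟨h1, h2⟩ := mem_erase.1 hy
    have := hmin y h2
    have : key y ≠ key z := fun e => h1 (hi e)
    exact mem_Phi_cons.2 (Or.inl ⟨(mem_inter.1 h2).2, by simp only; omega⟩)
  · rcases mem_Phi_cons.1 h2 with h | h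
    · exact absurd (mem_inter.2 ⟨h1, h.1⟩) h3
    · exact absurd h not_mem_Phi_nil

theorem St.step (tr : ∀ a b c, lt a b → lt b c → lt a c) (hk : ∀ a b, lt a b → key b < key a)
    (hB : ∀ v, key v < B) (hi : Function.Injective key) {U X A : Finset V} {z : V}
    {G₀ : List (Finset V × ℕ)} (hU : ∀ u ∈ U, ∀ v, lt u v → v ∈ U) (h : St lt key U X z A G₀)
    (hF : Feas lt 3 X) : ∃ S, Slot lt 3 S ∧ S ⊆ X ∧ Feas lt 3 (X \ up lt S) ∧
      Feas lt 3 (X ∩ suc lt S) ∧ (∃ D, DD lt key D ∧ X ∩ suc lt S = D ∩ suc lt S) ∧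
      (X \ up lt S = U ∩ anc lt S ∨ ∃ z' A' G', St lt key U (X \ up lt S) z' A' G') := by
  obtain ⟨G, hG, hlen, hcov, hsub, ht⟩ := exists_tight hB (A, key z + 1) G₀ h.hG h.cov
  set c : Finset V × ℕ := (A, key z + 1) with hc
  have hT : ∀ p ∈ c :: G, Adm lt p.1 := fun p hp => by
    rcases List.mem_cons.1 hp with rfl | hp
    exacts [h.hA, hG p hp]
  have hzP : z ∉ Phi key (c :: G) := fun hn => by
    rcases mem_Phi_cons.1 (hsub hn) with e | e
    · simp only [hc] at e; omega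
    · exact h.zP e
  have hzX := h.hz
  have sink : ∀ v ∈ X, ¬ lt z v := fun v hv hzv =>
    hzP (Phi_down' tr hk hT hzv (hcov (mem_erase.2
      ⟨fun e => by have := hk _ _ hzv; rw [e] at this; omega, hv⟩)))
  obtain ⟨D, hD, hXD⟩ := h.fam
  have hXU : ∀ y ∈ X, y ∈ U := fun y hy => (mem_inter.1 (hXD ▸ hy)).1
  have hdown : ∀ y ∈ U, ∀ x ∈ X, lt y x → y ∈ X := fun y hy x hx e =>
    hXD ▸ mem_inter.2 ⟨hy, hD.down tr hk e (mem_inter.1 (hXD ▸ hx)).2⟩
  obtain ⟨l, τ₀, h0⟩ := hF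
  obtain ⟨τ, hτ, hmax, hpot⟩ := exists_best h0 hzX (pot key B c G)
  have hs := hτ.1 z hzX
  have hlater := hτ.later tr hzX sink hmax
  have hSl := hτ.slot hs
  have hexcl := h.excl l τ hτ hmax
  generalize hSdef : (X.filter fun v => τ v = τ z) = S at hlater hSl hpot hexcl
  have hSm : ∀ v, v ∈ S ↔ v ∈ X ∧ τ v = τ z := fun v => by rw [← hSdef, mem_filter]
  have hSX : S ⊆ X := fun v hv => ((hSm v).1 hv).1
  have hzS' : z ∈ S := (hSm z).2 ⟨hzX, rfl⟩
  have hM : X ∩ suc lt S = X.filter fun v => τ z < τ v := by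
    ext v
    rw [mem_inter, mem_filter]
    refine ⟨fun ⟨h1, h2⟩ => ⟨h1, ?_⟩, fun ⟨h1, h2⟩ => ⟨h1, hlater v h1 h2⟩⟩
    obtain ⟨s, hs, hsv⟩ := mem_suc.1 h2
    have := hτ.2.2 s (hSX hs) v h1 hsv
    have := ((hSm s).1 hs).2
    omega
  have hL : X \ up lt S = X.filter fun v => τ v < τ z := by
    ext v
    rw [mem_sdiff, mem_filter, up, mem_union, not_or]
    refine ⟨fun ⟨h1, h2, h3⟩ => ⟨h1, ?_⟩, fun ⟨h1, h2⟩ => ⟨h1, fun h3 => ?_, fun h3 => ?_⟩⟩
    · rcases lt_trichotomy (τ v) (τ z) with c | c | c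
      · exact c
      · exact absurd ((hSm v).2 ⟨h1, c⟩) h2
      · exact absurd (hlater v h1 c) h3
    · have := ((hSm v).1 h3).2; omega
    · have := mem_filter.1 (hM ▸ mem_inter.2 ⟨h1, h3⟩); omega
  have sL : Sched lt 3 (X \ up lt S) (τ z) τ := hL ▸ hτ.early hs
  have sM : Sched lt 3 (X ∩ suc lt S) (l - τ z - 1) (fun v => τ v - τ z - 1) := hM ▸ hτ.late _
  have hzL : z ∉ X \ up lt S := fun hn => (mem_sdiff.1 hn).2 (mem_up.2 (Or.inl hzS'))
  have tri : ∀ v ∈ X, v ∈ X \ up lt S ∨ v ∈ S ∨ v ∈ X ∩ suc lt S := fun v hv => by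
    by_cases c : v ∈ up lt S
    · rcases mem_union.1 c with c | c
      · exact Or.inr (Or.inl c)
      · exact Or.inr (Or.inr (mem_inter.2 ⟨hv, c⟩))
    · exact Or.inl (mem_sdiff.2 ⟨hv, c⟩)
  have star : ∀ w ∈ S, w ≠ z → ∀ a τ₁, Sched lt 3 (X \ up lt S) a τ₁ → ∀ y ∈ X \ up lt S,
      (∀ v ∈ X \ up lt S, ¬ lt y v) → y ∉ anc lt S → (∀ u ∈ X \ up lt S, lt u w → τ₁ u < τ₁ y) →
      pot key B c G w ≤ pot key B c G y := by
    intro w hw hwz a τ₁ h1 y hy hysink hyS hpre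
    have ha : a = τ z := Nat.eq_of_mul_eq_mul_left (by omega) (h1.card.symm.trans sL.card)
    obtain ⟨σ, hσ, e1, e2, e3⟩ := glue tr hSl hSX h1 sM
    have hl : a + 1 + (l - τ z - 1) = l := by omega
    rw [hl] at hσ
    have hyX := (mem_sdiff.1 hy).1
    have hyS' : y ∉ S := fun hn => (mem_sdiff.1 hy).2 (mem_up.2 (Or.inl hn))
    have hy1 := h1.1 y hy
    have hsw := hσ.swap hyX (hSX hw) (by rw [e1 y hy, e2 w hw]; exact hy1)
      (fun v hv hyv => by
        rcases tri v hv with c | c | c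
        · exact absurd hyv (hysink v c)
        · exact absurd (mem_anc.2 ⟨v, c, hyv⟩) hyS
        · rw [e2 w hw, e3 v c]; omega)
      (fun u hu huw => by
        rcases tri u hu with c | c | c
        · rw [e1 u c, e1 y hy]; exact hpre u c huw
        · exact absurd huw (hSl.2 u c w hw)
        · obtain ⟨s, hs, hsu⟩ := mem_suc.1 (mem_inter.1 c).2
          exact absurd (tr _ _ _ hsu huw) (hSl.2 s hs w hw))
    have hzy : z ≠ y := fun e => hzL (e ▸ hy)
    have h2 := hpot _ hsw (by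
      rw [Equiv.swap_apply_of_ne_of_ne hzy hwz.symm, e2 z hzS', ha])
    have h3 : (X.filter fun v => σ v = τ z) = S := by
      ext v
      rw [mem_filter]
      refine ⟨fun ⟨g1, g2⟩ => ?_, fun g => ⟨hSX g, by rw [e2 v g, ha]⟩⟩
      rcases tri v g1 with c | c | c
      · have := h1.1 v c
        rw [e1 v c] at g2; omega
      · exact c
      · rw [e3 v c] at g2; omega
    rw [swap_filter hyX (hSX hw), h3, sum_map, ← add_sum_erase _ _ hw, ← add_sum_erase _ _ hw,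
      sum_congr rfl (s₁ := S.erase w)
        (f := fun v => pot key B c G ((Equiv.swap y w).toEmbedding v))
        (g := fun v => pot key B c G v)
        (fun v hv => by
          have := mem_erase.1 hv
          have hvy : v ≠ y := fun e => hyS' (e ▸ this.2)
          simp only [Equiv.coe_toEmbedding]
          rw [Equiv.swap_apply_of_ne_of_ne hvy this.1])] at h2
    simp only [Equiv.coe_toEmbedding, Equiv.swap_apply_right] at h2
    omega
  have hLa : ∀ y ∈ U, y ∈ anc lt S → y ∈ X \ up lt S := fun y h1 h2 => by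
    obtain ⟨s, hs, hys⟩ := mem_anc.1 h2
    refine mem_sdiff.2 ⟨hdown y h1 s (hSX hs) hys, fun hn => ?_⟩
    rcases mem_up.1 hn with c | ⟨s', hs', c⟩
    · exact hSl.2 y c s hs hys
    · exact hSl.2 s' hs' s hs (tr _ _ _ c hys)
  have hLP : ∀ y ∈ U, y ∈ Phi key (c :: G) → y ∉ up lt S → y ∈ X \ up lt S := fun y h1 h2 h3 => by
    by_contra hn
    exact h3 (hexcl y h1 (hsub h2) fun hy => hn (mem_sdiff.2 ⟨hy, h3⟩))
  refine ⟨S, hSl, hSX, ⟨_, _, sL⟩, ⟨_, _, sM⟩, ⟨D, hD, ?_⟩, ?_⟩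
  · ext y
    rw [mem_inter, mem_inter, hXD, mem_inter]
    refine ⟨fun ⟨h1, h2⟩ => ⟨h1.2, h2⟩, fun ⟨h1, h2⟩ => ⟨⟨?_, h1⟩, h2⟩⟩
    obtain ⟨s, hs, hsy⟩ := mem_suc.1 h2
    exact hU s (hXU s (hSX hs)) y hsy
  by_cases hQ : ((X \ up lt S) \ anc lt S).Nonempty
  swap
  · left
    ext y
    refine ⟨fun hy => mem_inter.2 ⟨hXU y (mem_sdiff.1 hy).1, ?_⟩,
      fun hy => hLa y (mem_inter.1 hy).1 (mem_inter.1 hy).2⟩
    by_contra hn
    exact hQ ⟨y, mem_sdiff.2 ⟨hy, hn⟩⟩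
  obtain ⟨x, A', G', n1, n2, n3, n4, n5, n6, n7, n8, n9, n10⟩ := next tr hk hB hi (c := c) h.hA hG
    (hlen.trans h.len) hSl hSX hzS' sink hcov hzP
    (fun y hy => ⟨h.hA.down tr hy h.zA, hk _ _ hy⟩) ht hQ
  have hT' : ∀ p ∈ (A', key x + 1) :: G', Adm lt p.1 := fun p hp => by
    rcases List.mem_cons.1 hp with rfl | hp
    exacts [n3, n5 p hp]
  have sink' : ∀ v ∈ X \ up lt S, ¬ lt x v := fun v hv hxv => by
    have := Phi_down' tr hk hT' hxv (n7 (mem_erase.2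
      ⟨fun e => by have := hk _ _ hxv; rw [e] at this; omega, hv⟩))
    rcases mem_Phi_cons.1 this with e | e
    · simp only at e; omega
    · exact n8 e
  refine Or.inr ⟨x, A', G', n3, n4, n5, n6, n1, n7, n8, fun a τ₁ h1 hmax1 y hyU hyP hyL => ?_,
    Phi key (c :: G) \ up lt S, ⟨c :: G, S, hT, by have := h.len; simp; omega, Or.inr hSl, rfl⟩, ?_⟩
  · have hyS : y ∈ up lt S := by
      by_contra hn
      rcases n9 y hyP with e | e
      · exact hyL (hLP y hyU e hn)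
      · exact hyL (hLa y hyU e)
    obtain ⟨w, hw, hwy⟩ : ∃ w ∈ S, w = y ∨ lt w y := by
      rcases mem_up.1 hyS with e | ⟨s, hs, e⟩
      exacts [⟨y, e, Or.inl rfl⟩, ⟨s, hs, Or.inr e⟩]
    have hwP : w ∈ Phi key ((A', key x + 1) :: G') := by
      rcases hwy with rfl | e
      exacts [hyP, Phi_down' tr hk hT' e hyP]
    have hwz : w ≠ z := by
      rintro rfl
      rcases n9 w hwP with e | e
      · exact hzP e
      · obtain ⟨s, hs, e⟩ := mem_anc.1 e
        exact hSl.2 w hw s hs e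
    obtain ⟨u, hu, huw, hτu⟩ : ∃ u ∈ X \ up lt S, lt u w ∧ τ₁ x ≤ τ₁ u := by
      by_contra hc
      push Not at hc
      have := star w hw hwz a τ₁ h1 x n1 sink' n2 hc
      have := n10 w hw hwP
      omega
    have huy : lt u y := by
      rcases hwy with rfl | e
      exacts [huw, tr _ _ _ huw e]
    rcases hτu.eq_or_lt with e | e
    · exact mem_up.2 (Or.inr ⟨u, mem_filter.2 ⟨hu, e.symm⟩, huy⟩)
    · obtain ⟨s, hs, hsu⟩ := mem_suc.1 (h1.later tr n1 sink' hmax1 u hu e)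
      exact mem_up.2 (Or.inr ⟨s, hs, tr _ _ _ hsu huy⟩)
  · ext y
    refine ⟨fun hy => mem_inter.2 ⟨hXU y (mem_sdiff.1 hy).1, mem_sdiff.2 ⟨hcov (mem_erase.2
      ⟨fun e => hzL (e ▸ hy), (mem_sdiff.1 hy).1⟩), (mem_sdiff.1 hy).2⟩⟩, fun hy => ?_⟩
    obtain ⟨h1, h2⟩ := mem_inter.1 hy
    exact hLP y h1 (mem_sdiff.1 h2).1 (mem_sdiff.1 h2).2

/-- A strict order, its reverse, and keys for both. -/
structure Two (lt gt : V → V → Prop) (key key' : V → ℕ) (B : ℕ) : Prop where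
  rev : ∀ a b, gt a b ↔ lt b a
  tr : ∀ a b c, lt a b → lt b c → lt a c
  hk : ∀ a b, lt a b → key b < key a
  hk' : ∀ a b, gt a b → key' b < key' a
  hB : ∀ v, key v < B
  hB' : ∀ v, key' v < B
  hi : Function.Injective key
  hi' : Function.Injective key'

omit [Fintype V] [DecidableEq V] [DecidableRel lt] [DecidableRel gt] in
theorem Two.symm (h : Two lt gt key key' B) : Two gt lt key' key B :=
  ⟨fun a b => (h.rev b a).symm, fun a b c h1 h2 =>
    (h.rev _ _).2 (h.tr _ _ _ ((h.rev _ _).1 h2) ((h.rev _ _).1 h1)),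
    h.hk', h.hk, h.hB', h.hB, h.hi', h.hi⟩

theorem dp2_main (i : ℕ) : ∀ (lt gt : V → V → Prop) [DecidableRel lt] [DecidableRel gt]
    (key key' : V → ℕ), Two lt gt key key' B → ∀ U X : Finset V, DD gt key' U →
    ((∃ A, Adm lt A ∧ X = U ∩ A) ∨ ∃ z A G, St lt key U X z A G) → Feas lt 3 X → X.card < i →
    Dp2 lt gt (Fam2 lt gt key key') i X := by
  induction i with
  | zero => intro _ _ _ _ _ _ _ _ _ _ _ _ h; omega
  | succ i ih =>
    intro lt gt _ _ key key' h2 U X hU hX hF hc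
    refine ⟨?_, ?_⟩
    · rcases hX with ⟨A, hA, e⟩ | ⟨z, A, G, h⟩
      · exact ⟨U, A, hU, hA.dd, e⟩
      · obtain ⟨D, hD, e⟩ := h.fam
        exact ⟨U, D, hU, hD, e⟩
    rcases X.eq_empty_or_nonempty with e | hne
    · exact Or.inl e
    obtain ⟨z, A, G, h⟩ : ∃ z A G, St lt key U X z A G := by
      rcases hX with ⟨A, hA, rfl⟩ | h
      · obtain ⟨z, h⟩ := St.start h2.hi hA hne
        exact ⟨z, A, [], h⟩
      · exact h
    obtain ⟨S, hS, hSX, f1, f2, ⟨D, hD, eD⟩, h3⟩ := h.step h2.tr h2.hk h2.hB h2.hi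
      (fun u hu v huv => hU.down h2.symm.tr h2.hk' ((h2.rev _ _).2 huv) hu) hF
    obtain ⟨s, hs⟩ : S.Nonempty := card_pos.1 (by rw [hS.1]; omega)
    refine Or.inr (Or.inl ⟨S, hS, hSX, ih lt gt key key' h2 U _ hU
      (h3.imp_left fun e => ⟨_, Or.inr ⟨S, hS, rfl⟩, e⟩) f1 ?_, Dp2.symm ?_
      (ih gt lt key' key h2.symm D _ hD (Or.inl ⟨suc lt S, Or.inr ⟨S, ⟨hS.1,
        fun u hu v hv e => hS.2 v hv u hu ((h2.rev _ _).1 e)⟩, ?_⟩, eD⟩) (f2.swap h2.rev) ?_)⟩)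
    · have := card_lt_card (s := X \ up lt S) (t := X) ⟨sdiff_subset, fun hn =>
        (mem_sdiff.1 (hn (hSX hs))).2 (mem_up.2 (Or.inl hs))⟩
      omega
    · rintro Y ⟨U', D', h1, h2, e⟩
      exact ⟨D', U', h2, h1, by rw [e, inter_comm]⟩
    · ext y
      simp only [mem_suc, mem_anc, h2.rev]
    · have := card_lt_card (s := X ∩ suc lt S) (t := X) ⟨inter_subset_left, fun hn => by
        obtain ⟨s', hs', e⟩ := mem_suc.1 (mem_inter.1 (hn (hSX hs))).2
        exact hS.2 s' hs' s hs e⟩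
      omega

theorem dp2_univ (h2 : Two lt gt key key' B) (h : Feas lt 3 (univ : Finset V)) :
    Dp2 lt gt (Fam2 lt gt key key') (Fintype.card V + 1) univ :=
  dp2_main _ lt gt key key' h2 univ univ (Adm.dd (Or.inl rfl))
    (Or.inl ⟨univ, Or.inl rfl, by simp⟩) h (by simp)

end Vale.Agent.P324.QP
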