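import Vale.Agent.P324.QPLayer

/-!
Three machines: four layers suffice.
-/

namespace Vale.Agent.P324.QP

open Finset

variable {V : Type} [Fintype V] [DecidableEq V] {lt : V → V → Prop} [DecidableRel lt]
  {key : V → ℕ} {B : ℕ}

/-- Admissible anchors. -/
def Adm (lt : V → V → Prop) [DecidableRel lt] (A : Finset V) : Prop :=
  A = univ ∨ ∃ S, Slot lt 3 S ∧ A = anc lt S

theorem Adm.down (tr : ∀ a b c, lt a b → lt b c → lt a c) {A : Finset V} (hA : Adm lt A)
    {y y' : V} (h : lt y y') (h' : y' ∈ A) : y ∈ A := by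
  rcases hA with rfl | ⟨S, -, rfl⟩
  · exact mem_univ _
  · obtain ⟨s, hs, hys⟩ := mem_anc.1 h'
    exact mem_anc.2 ⟨s, hs, tr _ _ _ h hys⟩

theorem lay_mono' (tr : ∀ a b c, lt a b → lt b c → lt a c) (hk : ∀ a b, lt a b → key b < key a)
    {Ls : List (Finset V × ℕ)} (hL : ∀ p ∈ Ls, Adm lt p.1) {y y' : V} (h : lt y y') :
    lay key Ls y ≤ lay key Ls y' := by
  rcases (lay_le (key := key) (Ls := Ls) y').eq_or_lt with e | e
  · rw [e]; exact lay_le y
  · have := lay_spec e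
    exact lay_le_of e ⟨(hL _ (List.getElem_mem e)).down tr h this.1, this.2.trans (hk _ _ h).le⟩

theorem Phi_down' (tr : ∀ a b c, lt a b → lt b c → lt a c) (hk : ∀ a b, lt a b → key b < key a)
    {Ls : List (Finset V × ℕ)} (hL : ∀ p ∈ Ls, Adm lt p.1) {y y' : V} (h : lt y y')
    (h' : y' ∈ Phi key Ls) : y ∈ Phi key Ls :=
  mem_Phi_iff.2 ((lay_mono' tr hk hL h).trans_lt (mem_Phi_iff.1 h'))

theorem mem_Phi_cons {p : Finset V × ℕ} {Ls : List (Finset V × ℕ)} {y : V} :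
    y ∈ Phi key (p :: Ls) ↔ (y ∈ p.1 ∧ p.2 ≤ key y) ∨ y ∈ Phi key Ls := by
  simp [mem_Phi]

theorem mem_Phi_append {Ls Ls' : List (Finset V × ℕ)} {y : V} :
    y ∈ Phi key (Ls ++ Ls') ↔ y ∈ Phi key Ls ∨ y ∈ Phi key Ls' := by
  simp only [mem_Phi, List.mem_append, or_and_right, exists_or]

theorem not_mem_Phi_nil {y : V} : y ∉ Phi key [] := by simp [mem_Phi]

/-- Border elements of the tail layers. -/
def IsB (key : V → ℕ) (G : List (Finset V × ℕ)) (y : V) : Prop := ∃ p ∈ G, key y = p.2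

instance (G : List (Finset V × ℕ)) (y : V) : Decidable (IsB key G y) := by
  unfold IsB; infer_instance

/-- The priority: border elements come last. -/
def pot (key : V → ℕ) (B : ℕ) (c : Finset V × ℕ) (G : List (Finset V × ℕ)) (y : V) : ℕ :=
  if IsB key G y then key y else B + rk key B (c :: G) y

/-- Every tail layer has a private border element in `Y`. -/
def Tight (key : V → ℕ) (Y : Finset V) (c : Finset V × ℕ) (G : List (Finset V × ℕ)) : Prop :=
  ∀ G₁ p G₂, G = G₁ ++ p :: G₂ → ∃ β ∈ Y, β ∈ p.1 ∧ key β = p.2 ∧ β ∉ Phi key (c :: (G₁ ++ G₂))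

theorem exists_tight (hB : ∀ v, key v < B) {Y : Finset V} (c : Finset V × ℕ)
    (G₀ : List (Finset V × ℕ)) (hG : ∀ p ∈ G₀, Adm lt p.1) (hY : Y ⊆ Phi key (c :: G₀)) :
    ∃ G : List (Finset V × ℕ), (∀ p ∈ G, Adm lt p.1) ∧ G.length ≤ G₀.length ∧
      Y ⊆ Phi key (c :: G) ∧ Phi key (c :: G) ⊆ Phi key (c :: G₀) ∧ Tight key Y c G := by
  induction hμ : (G₀.map fun p => B - p.2 + 1).sum using Nat.strong_induction_on
    generalizing G₀ with
  | _ k ih =>
  by_cases ht : Tight key Y c G₀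
  · exact ⟨G₀, hG, le_rfl, hY, subset_rfl, ht⟩
  simp only [Tight, not_forall] at ht
  obtain ⟨G₁, p, G₂, rfl, hn⟩ := ht
  push Not at hn
  by_cases hp : B ≤ p.2
  · obtain ⟨G, g1, g2, g3, g4, g5⟩ := ih _ (by rw [← hμ]; simp) (G₁ ++ G₂)
      (fun q hq => hG q (by simp at hq ⊢; tauto)) (fun y hy => by
        have := hY hy
        have := hB y
        simp only [mem_Phi_cons, mem_Phi_append] at *
        rcases ‹_ ∨ _› with h | h | h | h
        · tauto
        · tauto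
        · omega
        · tauto) rfl
    refine ⟨G, g1, g2.trans (by simp), g3, g4.trans fun y hy => ?_, g5⟩
    simp only [mem_Phi_cons, mem_Phi_append] at *
    tauto
  · obtain ⟨G, g1, g2, g3, g4, g5⟩ := ih _ (by rw [← hμ]; simp; omega)
      (G₁ ++ (p.1, p.2 + 1) :: G₂)
      (fun q hq => by
        simp only [List.mem_append, List.mem_cons] at hq
        rcases hq with h | rfl | h
        · exact hG q (by simp [h])
        · exact hG p (by simp)
        · exact hG q (by simp [h])) (fun y hy => by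
        have h1 := hY hy
        have h2 := hn y hy
        simp only [mem_Phi_cons, mem_Phi_append] at *
        rcases h1 with h | h | h | h
        · tauto
        · tauto
        · by_cases e : key y = p.2
          · have := h2 h.1 e; tauto
          · exact Or.inr (Or.inr (Or.inl ⟨h.1, by omega⟩))
        · tauto) rfl
    refine ⟨G, g1, g2.trans (by simp), g3, g4.trans fun y hy => ?_, g5⟩
    simp only [mem_Phi_cons, mem_Phi_append] at *
    rcases hy with h | h | h | h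
    · tauto
    · tauto
    · exact Or.inr (Or.inr (Or.inl ⟨h.1, by omega⟩))
    · tauto

theorem Tight.spec (hi : Function.Injective key) {Y : Finset V} {c : Finset V × ℕ}
    {G : List (Finset V × ℕ)} (h : Tight key Y c G) {y : V} {p : Finset V × ℕ} (hp : p ∈ G)
    (hy : key y = p.2) : y ∈ Y ∧ y ∈ p.1 ∧ ¬ (y ∈ c.1 ∧ c.2 ≤ key y) ∧
      ∀ q ∈ G, y ∈ q.1 ∧ q.2 ≤ key y → q = p := by
  obtain ⟨G₁, G₂, rfl⟩ := List.append_of_mem hp
  obtain ⟨β, h1, h2, h3, h4⟩ := h G₁ p G₂ rfl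
  obtain rfl : y = β := hi (hy.trans h3.symm)
  refine ⟨h1, h2, fun hc => h4 (mem_Phi_cons.2 (Or.inl hc)), fun q hq hyq => ?_⟩
  by_contra hne
  refine h4 (mem_Phi_cons.2 (Or.inr (mem_Phi.2 ⟨q, ?_, hyq⟩)))
  simp at hq ⊢; tauto

theorem Tight.take (hi : Function.Injective key) {Y : Finset V} {c : Finset V × ℕ}
    {G : List (Finset V × ℕ)} (h : Tight key Y c G) {a : ℕ} (ha : a ≤ G.length + 1) (y : V) :
    y ∈ Phi key ((c :: G.map fun p => (p.1, p.2 + 1)).take a) ↔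
      lay key (c :: G) y < a ∧ ¬ IsB key G y := by
  rw [mem_Phi]
  constructor
  · rintro ⟨q, hq, hy⟩
    obtain ⟨j, hj, rfl⟩ := List.mem_take_iff_getElem.1 hq
    simp only [List.length_cons, List.length_map] at hj
    rcases j with _ | j
    · refine ⟨(lay_le_of (Ls := c :: G) (i := 0) (by simp) hy).trans_lt (by omega),
        fun ⟨p, hp, e⟩ => ?_⟩
      exact (h.spec hi hp e).2.2.1 hy
    · simp only [List.getElem_cons_succ, List.getElem_map] at hy
      refine ⟨(lay_le_of (i := j + 1) (by simp; omega) ⟨hy.1, ?_⟩).trans_lt (by omega),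
        fun ⟨p, hp, e⟩ => ?_⟩
      · simp only [List.getElem_cons_succ]; omega
      · have := (h.spec hi hp e).2.2.2 _ (List.getElem_mem (n := j) (by omega)) ⟨hy.1, by omega⟩
        rw [this] at hy
        omega
  · rintro ⟨h1, h2⟩
    obtain ⟨j, h1, hl, h3⟩ : ∃ j, j < a ∧ ∃ hl : j < (c :: G).length,
        y ∈ (c :: G)[j].1 ∧ (c :: G)[j].2 ≤ key y :=
      ⟨_, h1, by simp; omega, lay_spec _⟩
    refine ⟨_, List.mem_take_iff_getElem.2 ⟨j, by simp; omega, rfl⟩, ?_⟩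
    rcases j with _ | j
    · exact h3
    · simp only [List.getElem_cons_succ, List.getElem_map] at h3 ⊢
      refine ⟨h3.1, ?_⟩
      have : key y ≠ _ := fun e => h2 ⟨_, List.getElem_mem (n := j) (by simpa using hl), e⟩
      omega

/-- The data for the next step. -/
def Nxt (lt : V → V → Prop) [DecidableRel lt] (key : V → ℕ) (B : ℕ) (c : Finset V × ℕ)
    (G : List (Finset V × ℕ)) (S L : Finset V) : Prop :=
  ∃ (x : V) (A : Finset V) (G' : List (Finset V × ℕ)), x ∈ L ∧ x ∉ anc lt S ∧ Adm lt A ∧ x ∈ A ∧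
    (∀ p ∈ G', Adm lt p.1) ∧ G'.length ≤ 3 ∧ L.erase x ⊆ Phi key ((A, key x + 1) :: G') ∧
    x ∉ Phi key G' ∧ (∀ y ∈ Phi key ((A, key x + 1) :: G'), y ∈ Phi key (c :: G) ∨ y ∈ anc lt S) ∧
    ∀ w ∈ S, w ∈ Phi key ((A, key x + 1) :: G') → pot key B c G x < pot key B c G w

theorem next_border (hB : ∀ v, key v < B) (hi : Function.Injective key) {Y S L : Finset V}
    {c : Finset V × ℕ} {G : List (Finset V × ℕ)} (hc : Adm lt c.1) (hG : ∀ p ∈ G, Adm lt p.1)
    (hlen : G.length ≤ 3) (hL : L ⊆ Phi key (c :: G)) (hLS : ∀ y ∈ L, y ∉ S)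
    (ht : Tight key Y c G) {x : V} (hx : x ∈ L) (hxS : x ∉ anc lt S) (hxB : IsB key G x) :
    Nxt lt key B c G S L := by
  obtain ⟨p, hp, hxp⟩ := hxB
  obtain ⟨G₁, G₂, e⟩ := List.append_of_mem hp
  obtain ⟨β, -, h2, h3, h4⟩ := ht G₁ p G₂ e
  obtain rfl : x = β := hi (hxp.trans h3.symm)
  set f : Finset V × ℕ → Finset V × ℕ :=
    fun q => if ∃ β ∈ L, key β = q.2 then q else (q.1, q.2 + 1) with hf
  have hsub : ∀ q ∈ G₁ ++ G₂, q ∈ G := fun q hq => by rw [e]; simp at hq ⊢; tauto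
  have f1 : ∀ q, (f q).1 = q.1 := fun q => by simp only [hf]; split_ifs <;> rfl
  have f2 : ∀ q, q.2 ≤ (f q).2 := fun q => by simp only [hf]; split_ifs <;> simp
  have f3 : ∀ q, ∀ y ∈ L, q.2 ≤ key y → (f q).2 ≤ key y := fun q y hy h => by
    simp only [hf]
    split_ifs with d
    · exact h
    · have : key y ≠ q.2 := fun e => d ⟨y, hy, e⟩
      simp only; omega
  have f4 : ∀ q y, y ∉ L → key y = q.2 → key y < (f q).2 := fun q y hy h => by
    simp only [hf]
    split_ifs with d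
    · obtain ⟨β, d1, d2⟩ := d
      exact absurd (hi (d2.trans h.symm) ▸ d1) hy
    · simp only; omega
  have hm : ∀ y, y ∈ Phi key ((G₁ ++ G₂).map f) ↔
      ∃ q ∈ G₁ ++ G₂, y ∈ q.1 ∧ (f q).2 ≤ key y := fun y => by
    simp only [mem_Phi, List.mem_map, exists_exists_and_eq_and, f1]
  refine ⟨x, p.1, c :: (G₁ ++ G₂).map f, hx, hxS, hG p hp, h2, fun q hq => ?_, ?_, fun y hy => ?_,
    fun hn => h4 ?_, fun y hy => Or.inl ?_, fun w hw hwP => ?_⟩
  · rcases List.mem_cons.1 hq with rfl | hq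
    · exact hc
    · obtain ⟨q', hq', rfl⟩ := List.mem_map.1 hq
      rw [f1]; exact hG q' (hsub q' hq')
  · rw [e] at hlen; simp at hlen ⊢; omega
  · obtain ⟨y1, y2⟩ := mem_erase.1 hy
    rw [mem_Phi_cons, mem_Phi_cons, hm]
    rcases mem_Phi_cons.1 (hL y2) with h | h
    · exact Or.inr (Or.inl h)
    obtain ⟨q, hq, hyq⟩ := mem_Phi.1 h
    by_cases d : q = p
    · subst d
      have : key y ≠ key x := fun e => y1 (hi e)
      exact Or.inl ⟨hyq.1, by simp only; omega⟩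
    · exact Or.inr (Or.inr ⟨q, by rw [e] at hq; simp at hq ⊢; tauto, hyq.1, f3 q y y2 hyq.2⟩)
  · rw [mem_Phi_cons, hm] at hn
    rcases hn with h | ⟨q, hq, h⟩
    · exact mem_Phi_cons.2 (Or.inl h)
    · exact mem_Phi_cons.2 (Or.inr (mem_Phi.2 ⟨q, hq, h.1, (f2 q).trans h.2⟩))
  · rw [mem_Phi_cons, mem_Phi_cons, hm] at hy
    rcases hy with h | h | ⟨q, hq, h⟩
    · exact mem_Phi_cons.2 (Or.inr (mem_Phi.2 ⟨p, hp, h.1, by simp only at h; omega⟩))
    · exact mem_Phi_cons.2 (Or.inl h)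
    · exact mem_Phi_cons.2 (Or.inr (mem_Phi.2 ⟨q, hsub q hq, h.1, (f2 q).trans h.2⟩))
  · rw [pot, if_pos ⟨p, hp, hxp⟩, pot, if_neg]
    · have := hB x; omega
    rintro ⟨q₀, hq₀, hw₀⟩
    obtain ⟨-, -, g1, g2⟩ := ht.spec hi hq₀ hw₀
    rw [mem_Phi_cons, mem_Phi_cons, hm] at hwP
    rcases hwP with h | h | ⟨q, hq, h⟩
    · simp only at h
      obtain rfl := g2 p hp ⟨h.1, by omega⟩
      omega
    · exact g1 h
    · obtain rfl := g2 q (hsub q hq) ⟨h.1, (f2 q).trans h.2⟩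
      have := f4 q w (fun hn => hLS w hn hw) hw₀
      omega

theorem next_inner (tr : ∀ a b c, lt a b → lt b c → lt a c) (hk : ∀ a b, lt a b → key b < key a)
    (hB : ∀ v, key v < B) (hi : Function.Injective key) {X S : Finset V} {z : V}
    {c : Finset V × ℕ} {G : List (Finset V × ℕ)} (hc : Adm lt c.1) (hG : ∀ p ∈ G, Adm lt p.1)
    (hlen : G.length ≤ 3) (hS : Slot lt 3 S) (hSX : S ⊆ X) (hz : z ∈ S)
    (sink : ∀ v ∈ X, ¬ lt z v) (hX : X.erase z ⊆ Phi key (c :: G)) (hzP : z ∉ Phi key (c :: G))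
    (hanc : ∀ y, lt y z → y ∈ c.1 ∧ c.2 ≤ key y) (ht : Tight key (X.erase z) c G)
    (hQ : ((X \ up lt S) \ anc lt S).Nonempty) (hnB : ∀ y ∈ X \ up lt S, ¬ IsB key G y) :
    Nxt lt key B c G S (X \ up lt S) := by
  set L := X \ up lt S with hLdef
  have hT : ∀ p ∈ c :: G, Adm lt p.1 := fun p hp => by
    rcases List.mem_cons.1 hp with rfl | hp
    exacts [hc, hG p hp]
  have hLS : ∀ y ∈ L, y ∉ S := fun y hy hn => (mem_sdiff.1 hy).2 (mem_up.2 (Or.inl hn))
  have hLP : ∀ y ∈ L, lay key (c :: G) y < G.length + 1 := fun y hy =>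
    mem_Phi_iff.1 (hX (mem_erase.2 ⟨fun e => hLS y hy (e ▸ hz), (mem_sdiff.1 hy).1⟩))
  have hSa : ∀ w ∈ S, w ∉ anc lt S := fun w hw hn => by
    obtain ⟨s, hs, e⟩ := mem_anc.1 hn
    exact hS.2 w hw s hs e
  have hlz : ∀ y, lt y z → lay key (c :: G) y = 0 := fun y h =>
    Nat.le_zero.1 (lay_le_of (Ls := c :: G) (i := 0) (by simp) (hanc y h))
  have hzl : lay key (c :: G) z = G.length + 1 := by
    have := lay_le (key := key) (Ls := c :: G) z
    rw [mem_Phi_iff] at hzP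
    simp only [List.length_cons] at this hzP
    omega
  have hPa : ∀ y, y ∈ Phi key [(anc lt S, 0)] ↔ y ∈ anc lt S := fun y => by
    simp only [mem_Phi_cons, not_mem_Phi_nil, or_false, Nat.zero_le, and_true]
  have hAS : ∀ p ∈ [(anc lt S, 0)], Adm lt p.1 := fun p hp => by
    rw [List.mem_singleton.1 hp]; exact Or.inr ⟨S, hS, rfl⟩
  -- the common part
  have main : ∀ (b : ℕ) (R : List (Finset V × ℕ)) (x : V) (i : ℕ) (hi : i < (c :: G).length),
      b ≤ G.length + 1 → b + R.length ≤ 3 → (∀ p ∈ R, Adm lt p.1) → x ∈ L → x ∉ anc lt S →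
      x ∈ (c :: G)[i].1 → (c :: G)[i].2 ≤ key x → b ≤ lay key (c :: G) x → x ∉ Phi key R →
      (∀ y ∈ L, b ≤ lay key (c :: G) y → y ∉ Phi key R → y ∈ (c :: G)[i].1 ∧ key x ≤ key y) →
      (∀ y ∈ Phi key R, y ∈ Phi key (c :: G) ∨ y ∈ anc lt S) →
      (∀ w ∈ S, b ≤ lay key (c :: G) w ∨ IsB key G w → w ∈ Phi key R ∨
        (w ∈ (c :: G)[i].1 ∧ key x < key w) → pot key B c G x < pot key B c G w) →
      Nxt lt key B c G S L := by
    intro b R x i hi' hb hlen' hR hx hxS hxA hxθ hbx hxR hcov hRP hw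
    have hm : ∀ y, y ∈ Phi key ((c :: G.map fun p => (p.1, p.2 + 1)).take b ++ R) ↔
        (lay key (c :: G) y < b ∧ ¬ IsB key G y) ∨ y ∈ Phi key R := fun y => by
      rw [mem_Phi_append, ht.take hi hb]
    refine ⟨x, _, (c :: G.map fun p => (p.1, p.2 + 1)).take b ++ R, hx, hxS,
      hT _ (List.getElem_mem hi'), hxA, fun q hq => ?_, ?_, fun y hy => ?_, ?_, fun y hy => ?_,
      fun w hwS hwP => ?_⟩
    · rcases List.mem_append.1 hq with h | h
      · rcases List.mem_cons.1 (List.mem_of_mem_take h) with rfl | h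
        · exact hc
        · obtain ⟨q', hq', rfl⟩ := List.mem_map.1 h
          exact hG q' hq'
      · exact hR q h
    · simp; omega
    · obtain ⟨y1, y2⟩ := mem_erase.1 hy
      rw [mem_Phi_cons, hm]
      by_cases d : lay key (c :: G) y < b
      · exact Or.inr (Or.inl ⟨d, hnB y y2⟩)
      by_cases d' : y ∈ Phi key R
      · exact Or.inr (Or.inr d')
      have := hcov y y2 (by omega) d'
      have : key y ≠ key x := fun e => y1 (hi e)
      exact Or.inl ⟨by tauto, by simp only; omega⟩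
    · rw [hm]
      rintro (h | h)
      · omega
      · exact hxR h
    · rw [mem_Phi_cons, hm] at hy
      rcases hy with h | h | h
      · exact Or.inl (mem_Phi.2 ⟨_, List.getElem_mem hi', h.1, by simp only at h; omega⟩)
      · exact Or.inl (mem_Phi_iff.2 (by simp; omega))
      · exact hRP y h
    · rw [mem_Phi_cons, hm] at hwP
      by_cases d : lay key (c :: G) w < b ∧ ¬ IsB key G w
      · rw [pot, if_neg (hnB x hx), pot, if_neg d.2]
        have := (rk_lt_iff (Ls := c :: G) (w := x) (y := w) hB).2 (Or.inl (by omega))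
        omega
      · refine hw w hwS (by by_cases IsB key G w <;> simp_all) ?_
        rcases hwP with h | h | h
        · exact Or.inr h
        · exact absurd h d
        · exact Or.inl h
  obtain ⟨x, hxQ, hxmin⟩ := exists_min_image _ (rk key B (c :: G)) hQ
  obtain ⟨hx, hxS⟩ := mem_sdiff.1 hxQ
  have hxl := hLP x hx
  have hxs := lay_spec (key := key) (Ls := c :: G) (y := x) hxl
  -- elements of `S` above `x` in its layer
  have hup : ∀ w ∈ S, lay key (c :: G) x ≤ lay key (c :: G) w ∨ IsB key G w →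
      w ∈ (c :: G)[lay key (c :: G) x].1 ∧ key x < key w → pot key B c G x < pot key B c G w := by
    intro w hw h1 h2
    have h3 := lay_le_of (key := key) (Ls := c :: G) (y := w) hxl ⟨h2.1, by omega⟩
    have h4 : ¬ IsB key G w := by
      rintro ⟨q, hq, e⟩
      obtain ⟨-, -, g1, g2⟩ := ht.spec hi hq e
      rcases List.mem_cons.1 (List.getElem_mem (l := c :: G) hxl) with d | d
      · rw [d] at h2 hxs
        exact g1 ⟨h2.1, by omega⟩
      · have := g2 _ d ⟨h2.1, by omega⟩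
        rw [this] at hxs
        omega
    rw [pot, if_neg (hnB x hx), pot, if_neg h4]
    have := (rk_lt_iff (Ls := c :: G) (w := x) (y := w) hB).2 (by omega)
    omega
  have hsame : ∀ y, lay key (c :: G) y = lay key (c :: G) x →
      y ∈ (c :: G)[lay key (c :: G) x].1 := fun y e => by
    have := (lay_spec (key := key) (Ls := c :: G) (y := y) (e ▸ hxl)).1
    simp only [e] at this
    exact this
  by_cases ha : lay key (c :: G) x ≤ 2
  · refine main (lay key (c :: G) x) [(anc lt S, 0)] x _ hxl hxl.le (by simp only [List.length_singleton]; omega)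
      hAS hx hxS hxs.1 hxs.2 le_rfl (by rwa [hPa])
      (fun y hy h1 h2 => ?_) (fun y hy => Or.inr ((hPa y).1 hy)) (fun w hw h1 h2 => ?_)
    · rw [hPa] at h2
      have := hxmin y (mem_sdiff.2 ⟨hy, h2⟩)
      have h3 := (rk_lt_iff (Ls := c :: G) (w := y) (y := x) hB).not.1 (by omega)
      exact ⟨hsame y (by omega), by omega⟩
    · rw [hPa] at h2
      exact hup w hw h1 (h2.resolve_left (hSa w hw))
  have ha3 : lay key (c :: G) x = 3 := by omega
  have hG3 : G.length = 3 := by omega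
  by_cases hy0 : ∀ y ∈ L, lay key (c :: G) y = 3 → key x ≤ key y
  · refine main 3 [] x _ hxl (by omega) (by simp) (by simp) hx hxS hxs.1 hxs.2 ha3.ge
      not_mem_Phi_nil (fun y hy h1 _ => ?_) (fun y hy => absurd hy not_mem_Phi_nil)
      (fun w hw h1 h2 => hup w hw (by rwa [ha3]) (h2.resolve_left not_mem_Phi_nil))
    have := hLP y hy
    exact ⟨hsame y (by omega), hy0 y hy (by omega)⟩
  push Not at hy0
  obtain ⟨y₁, hy₁, hy₁l, hy₁k⟩ := hy0
  obtain ⟨y₀, hy₀, hy₀min⟩ := exists_min_image (L.filter fun y => lay key (c :: G) y = 3) key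
    ⟨y₁, mem_filter.2 ⟨hy₁, hy₁l⟩⟩
  obtain ⟨hy₀L, hy₀l⟩ := mem_filter.1 hy₀
  obtain ⟨u, hu, hy₀u⟩ : ∃ u ∈ S, lt y₀ u := by
    by_contra hn
    have h1 := hxmin y₀ (mem_sdiff.2 ⟨hy₀L, fun h => hn (mem_anc.1 h)⟩)
    have h2 := hy₀min y₁ (mem_filter.2 ⟨hy₁, hy₁l⟩)
    have := (rk_lt_iff (Ls := c :: G) (w := y₀) (y := x) hB).2 (by omega)
    omega
  have huz : u ≠ z := fun e => by have := hlz y₀ (e ▸ hy₀u); omega
  have hul : lay key (c :: G) u = 3 := by
    have h1 := lay_mono' tr hk hT hy₀u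
    have h2 := mem_Phi_iff.1 (hX (mem_erase.2 ⟨huz, hSX hu⟩))
    simp only [List.length_cons] at h2
    omega
  have huk : ∀ y ∈ L, lay key (c :: G) y = 3 → key u < key y := fun y hy e =>
    (hk _ _ hy₀u).trans_le (hy₀min y (mem_filter.2 ⟨hy, e⟩))
  obtain ⟨t₁, t₂, t₃, rfl⟩ := List.length_eq_three.1 hG3
  have l0 : ∀ y, y ∈ c.1 ∧ c.2 ≤ key y → lay key [c, t₁, t₂, t₃] y ≤ 0 :=
    fun y h => lay_le_of (Ls := [c, t₁, t₂, t₃]) (i := 0) (by simp) h
  have l1 : ∀ y, y ∈ t₁.1 ∧ t₁.2 ≤ key y → lay key [c, t₁, t₂, t₃] y ≤ 1 :=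
    fun y h => lay_le_of (Ls := [c, t₁, t₂, t₃]) (i := 1) (by simp) h
  have l2 : ∀ y, y ∈ t₂.1 ∧ t₂.2 ≤ key y → lay key [c, t₁, t₂, t₃] y ≤ 2 :=
    fun y h => lay_le_of (Ls := [c, t₁, t₂, t₃]) (i := 2) (by simp) h
  have s2 : ∀ y, lay key [c, t₁, t₂, t₃] y = 2 → y ∈ t₂.1 ∧ t₂.2 ≤ key y := fun y e => by
    have := lay_spec (key := key) (Ls := [c, t₁, t₂, t₃]) (y := y) (by simp [e])
    simp only [e] at this
    exact this
  have s3 : ∀ y, lay key [c, t₁, t₂, t₃] y = 3 → y ∈ t₃.1 ∧ t₃.2 ≤ key y := fun y e => by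
    have := lay_spec (key := key) (Ls := [c, t₁, t₂, t₃]) (y := y) (by simp [e])
    simp only [e] at this
    exact this
  -- the third job of the slot
  obtain ⟨e, he⟩ : ∃ e, ∀ w ∈ S, w = z ∨ w = u ∨ w = e := by
    have h1 : ((S.erase z).erase u).card = 1 := by
      rw [card_erase_of_mem (mem_erase.2 ⟨huz, hu⟩), card_erase_of_mem hz, hS.1]
    obtain ⟨e, h2⟩ := card_eq_one.1 h1
    refine ⟨e, fun w hw => ?_⟩
    by_contra hn
    push Not at hn
    have : w ∈ (S.erase z).erase u := mem_erase.2 ⟨hn.2.1, mem_erase.2 ⟨hn.1, hw⟩⟩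
    rw [h2] at this
    exact hn.2.2 (mem_singleton.1 this)
  have het : ∀ t, t ∈ [t₁, t₂, t₃] → (∀ y, y ∈ t.1 ∧ t.2 ≤ key y → lay key [c, t₁, t₂, t₃] y ≤ 2) →
      e ∈ t.1 ∧ t.2 ≤ key e := by
    intro t htG hl
    obtain ⟨G₁, G₂, d⟩ := List.append_of_mem htG
    obtain ⟨β, b1, b2, b3, -⟩ := ht G₁ t G₂ d
    obtain ⟨b4, b5⟩ := mem_erase.1 b1
    have b6 : β ∈ up lt S := by
      by_contra hn
      exact hnB β (mem_sdiff.2 ⟨b5, hn⟩) ⟨t, htG, b3⟩
    obtain ⟨s, hs, hsβ⟩ : ∃ s ∈ S, s = β ∨ lt s β := by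
      rcases mem_up.1 b6 with h | ⟨s, hs, h⟩
      exacts [⟨β, h, Or.inl rfl⟩, ⟨s, hs, Or.inr h⟩]
    have b7 : s ∈ t.1 ∧ t.2 ≤ key s := by
      rcases hsβ with rfl | h
      · exact ⟨b2, b3.ge⟩
      · exact ⟨(hG t htG).down tr h b2, b3.ge.trans (hk _ _ h).le⟩
    rcases he s hs with rfl | rfl | rfl
    · rcases hsβ with h | h
      · exact absurd h.symm b4
      · exact absurd h (sink β b5)
    · have := hl s b7; omega
    · exact b7
  have he1 := het t₁ (by simp) fun y h => (l1 y h).trans (by omega)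
  have he2 := het t₂ (by simp) l2
  have heB : ¬ IsB key [t₁, t₂, t₃] e := by
    rintro ⟨q, hq, d⟩
    obtain ⟨-, -, -, g⟩ := ht.spec hi hq d
    have g1 := g t₁ (by simp) he1
    have g2 := g t₂ (by simp) he2
    obtain ⟨β, -, b2, b3, b4⟩ := ht [] t₁ [t₂, t₃] rfl
    exact b4 (mem_Phi.2 ⟨t₂, by simp, by rw [g2, ← g1]; exact ⟨b2, b3.ge⟩⟩)
  have hel := l1 e he1
  have hP3 : ∀ y, y ∈ Phi key [(t₃.1, key u + 1)] ↔ y ∈ t₃.1 ∧ key u < key y := fun y => by
    simp only [mem_Phi_cons, not_mem_Phi_nil, or_false, Nat.succ_le_iff]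
  have hz3 : ∀ θ, t₃.2 ≤ θ → ¬ (z ∈ t₃.1 ∧ θ ≤ key z) := fun θ h1 h2 =>
    hzP (mem_Phi.2 ⟨t₃, by simp, h2.1, h1.trans h2.2⟩)
  have hu3 := s3 u hul
  by_cases hE : (L.filter fun y => lay key [c, t₁, t₂, t₃] y = 2 ∧
      ¬ (y ∈ t₃.1 ∧ key u < key y)).Nonempty
  · obtain ⟨x', hx', hmin⟩ := exists_min_image _ key hE
    obtain ⟨g1, g2, g3⟩ := mem_filter.1 hx'
    refine main 2 [(t₃.1, key u + 1)] x' 2 (by simp) (by simp) (by simp)
      (by simpa using hG t₃ (by simp)) g1 (fun hn => ?_) (s2 x' g2).1 (s2 x' g2).2 g2.ge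
      (by rwa [hP3]) (fun y hy h1 h2 => ?_) (fun y hy => Or.inl ?_) (fun w hw h1 h2 => ?_)
    · obtain ⟨s, hs, hxs⟩ := mem_anc.1 hn
      rcases he s hs with rfl | rfl | rfl
      · have := hlz x' hxs; omega
      · exact g3 ⟨(hG t₃ (by simp)).down tr hxs hu3.1, hk _ _ hxs⟩
      · have := lay_mono' tr hk hT hxs; omega
    · rw [hP3] at h2
      have h3 : lay key [c, t₁, t₂, t₃] y = 2 := by
        by_contra hn
        have h4 := hLP y hy
        simp only [List.length_cons, List.length_nil] at h4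
        exact h2 ⟨(s3 y (by omega)).1, huk y hy (by omega)⟩
      exact ⟨(s2 y h3).1, hmin y (mem_filter.2 ⟨hy, h3, h2⟩)⟩
    · rw [hP3] at hy
      exact mem_Phi.2 ⟨t₃, by simp, hy.1, by omega⟩
    · rw [hP3] at h2
      have h3 := s2 x' g2
      rcases he w hw with rfl | rfl | rfl
      · rcases h2 with h | h
        · exact absurd ⟨h.1, h.2.le⟩ (hz3 _ hu3.2)
        · exact absurd (mem_Phi.2 ⟨t₂, by simp, h.1, by omega⟩) hzP
      · rcases h2 with h | h
        · omega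
        · have := l2 w ⟨h.1, by omega⟩; omega
      · rcases h1 with h | h
        · omega
        · exact absurd h heB
  · have hE' : ∀ y ∈ L, 2 ≤ lay key [c, t₁, t₂, t₃] y → y ∈ t₃.1 ∧ key u < key y := by
      intro y hy h1
      by_contra hn
      have h4 := hLP y hy
      simp only [List.length_cons, List.length_nil] at h4
      by_cases h3 : lay key [c, t₁, t₂, t₃] y = 2
      · exact hE ⟨y, mem_filter.2 ⟨hy, h3, hn⟩⟩
      · exact hn ⟨(s3 y (by omega)).1, huk y hy (by omega)⟩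
    obtain ⟨x', hx', hmin⟩ := exists_min_image ((L \ anc lt S).filter fun y =>
      2 ≤ lay key [c, t₁, t₂, t₃] y) key ⟨x, mem_filter.2 ⟨hxQ, by omega⟩⟩
    obtain ⟨g1, g2⟩ := mem_filter.1 hx'
    obtain ⟨g1, g3⟩ := mem_sdiff.1 g1
    have g4 := hE' x' g1 g2
    refine main 2 [(anc lt S, 0)] x' 3 (by simp) (by simp) (by simp)
      hAS g1 g3 g4.1 (hu3.2.trans g4.2.le) g2 (by rwa [hPa])
      (fun y hy h1 h2 => ?_) (fun y hy => Or.inr ((hPa y).1 hy)) (fun w hw h1 h2 => ?_)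
    · rw [hPa] at h2
      exact ⟨(hE' y hy h1).1, hmin y (mem_filter.2 ⟨mem_sdiff.2 ⟨hy, h2⟩, h1⟩)⟩
    · rw [hPa] at h2
      have h3 := h2.resolve_left (hSa w hw)
      rcases he w hw with rfl | rfl | rfl
      · exact absurd ⟨h3.1, h3.2.le⟩ (hz3 _ (hu3.2.trans g4.2.le))
      · omega
      · rcases h1 with h | h
        · omega
        · exact absurd h heB

theorem next (tr : ∀ a b c, lt a b → lt b c → lt a c) (hk : ∀ a b, lt a b → key b < key a)
    (hB : ∀ v, key v < B) (hi : Function.Injective key) {X S : Finset V} {z : V}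
    {c : Finset V × ℕ} {G : List (Finset V × ℕ)} (hc : Adm lt c.1) (hG : ∀ p ∈ G, Adm lt p.1)
    (hlen : G.length ≤ 3) (hS : Slot lt 3 S) (hSX : S ⊆ X) (hz : z ∈ S)
    (sink : ∀ v ∈ X, ¬ lt z v) (hX : X.erase z ⊆ Phi key (c :: G)) (hzP : z ∉ Phi key (c :: G))
    (hanc : ∀ y, lt y z → y ∈ c.1 ∧ c.2 ≤ key y) (ht : Tight key (X.erase z) c G)
    (hQ : ((X \ up lt S) \ anc lt S).Nonempty) : Nxt lt key B c G S (X \ up lt S) := by
  by_cases hnB : ∀ y ∈ X \ up lt S, ¬ IsB key G y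
  · exact next_inner tr hk hB hi hc hG hlen hS hSX hz sink hX hzP hanc ht hQ hnB
  push Not at hnB
  obtain ⟨x, hx, p, hp, hxp⟩ := hnB
  have hLS : ∀ y ∈ X \ up lt S, y ∉ S := fun y hy hn => (mem_sdiff.1 hy).2 (mem_up.2 (Or.inl hn))
  obtain ⟨-, g1, g2, g3⟩ := ht.spec hi hp hxp
  refine next_border hB hi hc hG hlen (fun y hy => hX (mem_erase.2
    ⟨fun e => hLS y hy (e ▸ hz), (mem_sdiff.1 hy).1⟩)) hLS ht hx (fun hn => ?_) ⟨p, hp, hxp⟩
  obtain ⟨s, hs, hxs⟩ := mem_anc.1 hn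
  by_cases e : s = z
  · exact g2 (hanc x (e ▸ hxs))
  have h1 := hk _ _ hxs
  rcases mem_Phi_cons.1 (hX (mem_erase.2 ⟨e, hSX hs⟩)) with h | h
  · exact g2 ⟨hc.down tr hxs h.1, by omega⟩
  · obtain ⟨q, hq, h⟩ := mem_Phi.1 h
    obtain rfl := g3 q hq ⟨(hG q hq).down tr hxs h.1, by omega⟩
    omega

end Vale.Agent.P324.QP
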