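import Vale.Agent.Lib.H24.PTQuasi

/-!
The dynamic program on bit lists, and its running time.
-/

namespace Vale.Agent.P324.QP

open Vale.Agent.Lib.H24.T

variable {α : Type} [Enc α]

/-- Matrix entry. -/
def gm (M : List (List Bool)) (u v : ℕ) : Bool := (M.getD u []).getD v false

@[fun_prop] theorem PT_gm {M : α → List (List Bool)} {u v : α → ℕ} (hM : PT M) (hu : PT u)
    (hv : PT v) : PT (fun a => gm (M a) (u a) (v a)) := by
  unfold gm; fun_prop

/-- One Warshall step. -/
def wstep (R : List ℕ) (M : List (List Bool)) (k : ℕ) : List (List Bool) :=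
  R.map fun u => R.map fun v => gm M u v || (gm M u k && gm M k v)

/-- The arc matrix. -/
def arcM (R : List ℕ) (adj : List (List ℕ)) : List (List Bool) :=
  R.map fun u => R.map fun v => (adj.getD u []).any fun x => decide (x = v)

/-- The transitive closure. -/
def clos (R : List ℕ) (adj : List (List ℕ)) : List (List Bool) := R.foldl (wstep R) (arcM R adj)

theorem sz_row (R : List ℕ) (p : ℕ → Bool) : sz (R.map p) ≤ R.length * 4 + 1 := by
  have := sz_list_le (l := R.map p) (B := 3) fun a _ => sz_bool a
  simpa using this

theorem sz_mat (R : List ℕ) (p : ℕ → ℕ → Bool) :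
    sz (R.map fun u => R.map (p u)) ≤ R.length * (R.length * 4 + 2) + 1 := by
  have := sz_list_le (l := R.map fun u => R.map (p u)) (B := R.length * 4 + 1) fun a ha => by
    obtain ⟨u, -, rfl⟩ := List.mem_map.1 ha
    exact sz_row R _
  simpa using this

@[fun_prop] theorem PT_clos {R : α → List ℕ} {adj : α → List (List ℕ)} (hR : PT R) (ha : PT adj) :
    PT (fun a => clos (R a) (adj a)) := by
  unfold clos
  refine PT.foldl (h := fun a M k => wstep (R a) M k) (by unfold wstep; fun_prop) hR
    (by unfold arcM; fun_prop) (fun a => (R a).length * ((R a).length * 4 + 2) + 1) (by fun_prop)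
    fun a i => ?_
  generalize (R a).take i = L
  induction L using List.reverseRecOn with
  | nil => exact sz_mat _ _
  | append_singleton L k _ => rw [List.foldl_append]; exact sz_mat _ _

/-- The key of a job. -/
def keyL (R : List ℕ) (M : List (List Bool)) (y : ℕ) : ℕ :=
  (R.filter fun v => gm M y v).length * R.length + y

@[fun_prop] theorem PT_keyL {R : α → List ℕ} {M : α → List (List Bool)} {y : α → ℕ} (hR : PT R)
    (hM : PT M) (hy : PT y) : PT (fun a => keyL (R a) (M a) (y a)) := by
  unfold keyL; fun_prop

/-- All lists of length `k` over `R`. -/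
def tuples (R : List ℕ) : ℕ → List (List ℕ)
  | 0 => [[]]
  | k + 1 => R.flatMap fun x => (tuples R k).map fun t => x :: t

@[fun_prop] theorem PT_tuples {R : α → List ℕ} (hR : PT R) (k : ℕ) :
    PT (fun a => tuples (R a) k) := by
  induction k with
  | zero => exact PT.const _
  | succ k ih =>
    unfold tuples
    have : PT (fun p : α × ℕ => tuples (R p.1) k) := ih.comp (g := fun p : α × ℕ => p.1) (by fun_prop)
    fun_prop

/-- The antichains of size `m`. -/
def slots (m : ℕ) (R : List ℕ) (M : List (List Bool)) : List (List Bool) :=
  ((tuples R m).map fun t => R.map fun y => t.any fun x => decide (x = y)).filter fun s =>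
    decide ((R.filter fun y => s.getD y false).length = m) &&
      R.all fun u => R.all fun v => !(s.getD u false && s.getD v false && gm M u v)

@[fun_prop] theorem PT_slots (m : ℕ) {R : α → List ℕ} {M : α → List (List Bool)} (hR : PT R)
    (hM : PT M) : PT (fun a => slots m (R a) (M a)) := by
  unfold slots; fun_prop

/-- Ancestors. -/
def ancL (R : List ℕ) (M : List (List Bool)) (s : List Bool) : List Bool :=
  R.map fun y => R.any fun v => s.getD v false && gm M y v

/-- Successors. -/
def sucL (R : List ℕ) (M : List (List Bool)) (s : List Bool) : List Bool :=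
  R.map fun y => R.any fun v => s.getD v false && gm M v y

@[fun_prop] theorem PT_ancL {R : α → List ℕ} {M : α → List (List Bool)} {s : α → List Bool}
    (hR : PT R) (hM : PT M) (hs : PT s) : PT (fun a => ancL (R a) (M a) (s a)) := by
  unfold ancL; fun_prop

@[fun_prop] theorem PT_sucL {R : α → List ℕ} {M : α → List (List Bool)} {s : α → List Bool}
    (hR : PT R) (hM : PT M) (hs : PT s) : PT (fun a => sucL (R a) (M a) (s a)) := by
  unfold sucL; fun_prop

/-- The layers. -/
def terms (m : ℕ) (R : List ℕ) (M : List (List Bool)) : List (List Bool) :=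
  (R.map fun _ => false) :: ((R.map fun _ => true) :: (slots m R M).map (ancL R M)).flatMap
    fun A => (0 :: R.map fun z => keyL R M z + 1).map fun θ =>
      R.map fun y => A.getD y false && decide (θ ≤ keyL R M y)

@[fun_prop] theorem PT_terms (m : ℕ) {R : α → List ℕ} {M : α → List (List Bool)} (hR : PT R)
    (hM : PT M) : PT (fun a => terms m (R a) (M a)) := by
  unfold terms; fun_prop

/-- One more layer. -/
def more (R : List ℕ) (Ts P : List (List Bool)) : List (List Bool) :=
  P.flatMap fun F => Ts.map fun t => R.map fun y => F.getD y false || t.getD y false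

/-- One more layer, cut to the length of the fuel. -/
def moreF (R : List ℕ) (Ts : List (List Bool)) (fuel : List Unit) (P : List (List Bool)) :
    List (List Bool) := ((more R Ts P).zip fuel).map Prod.fst

/-- Unions of layers. -/
def phis (R : List ℕ) (Ts : List (List Bool)) (fuel cnt : List Unit) : List (List Bool) :=
  (moreF R Ts fuel)^[cnt.length] [R.map fun _ => false]

@[fun_prop] theorem PT_phis {R : α → List ℕ} {Ts : α → List (List Bool)} {fuel cnt : α → List Unit}
    (hR : PT R) (hT : PT Ts) (hf : PT fuel) (hc : PT cnt) :
    PT (fun a => phis (R a) (Ts a) (fuel a) (cnt a)) := by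
  unfold phis
  refine PT.iterate (h := fun a P => moreF (R a) (Ts a) (fuel a) P)
    (by unfold moreF more; fun_prop) hc (by fun_prop)
    (fun a => ((fuel a).length + 1) * ((R a).length * 4 + 2) + 1) (by fun_prop) fun a i _ => ?_
  rcases i with _ | i
  · have := sz_row (R a) fun _ => false
    simp only [Function.iterate_zero, id, sz_cons, sz_nil]
    nlinarith
  · rw [Function.iterate_succ_apply']
    generalize (moreF (R a) (Ts a) (fuel a))^[i] _ = P
    have := sz_list_le (l := moreF (R a) (Ts a) (fuel a) P) (B := (R a).length * 4 + 1)
      fun x hx => by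
        obtain ⟨⟨y, u⟩, hy, rfl⟩ := List.mem_map.1 hx
        obtain ⟨F, -, hF⟩ := List.mem_flatMap.1 (List.of_mem_zip hy).1
        obtain ⟨t, -, rfl⟩ := List.mem_map.1 hF
        exact sz_row _ _
    have h2 : (moreF (R a) (Ts a) (fuel a) P).length ≤ (fuel a).length := by simp [moreF]
    nlinarith

/-- The family of job sets. -/
def famL (R : List ℕ) (M : List (List Bool)) (Sl P : List (List Bool)) : List (List Bool) :=
  ((R.map fun _ => true) :: Sl.map (sucL R M)).flatMap fun U => P.flatMap fun F =>
    ((R.map fun _ => false) :: Sl).map fun S => R.map fun y =>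
      U.getD y false && F.getD y false && !(S.getD y false || (sucL R M S).getD y false)

@[fun_prop] theorem PT_famL {R : α → List ℕ} {M Sl P : α → List (List Bool)} (hR : PT R)
    (hM : PT M) (hS : PT Sl) (hP : PT P) : PT (fun a => famL (R a) (M a) (Sl a) (P a)) := by
  unfold famL; fun_prop

/-- Membership of a set in a list of sets. -/
def has (R : List ℕ) (Q : List (List Bool)) (X : List Bool) : Bool :=
  Q.any fun l => R.all fun y => (l.getD y false && X.getD y false) ||
    (!l.getD y false && !X.getD y false)

@[fun_prop] theorem PT_has {R : α → List ℕ} {Q : α → List (List Bool)} {X : α → List Bool}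
    (hR : PT R) (hQ : PT Q) (hX : PT X) : PT (fun a => has (R a) (Q a) (X a)) := by
  unfold has; fun_prop

/-- One round of the dynamic program. -/
def round (R : List ℕ) (M Sl F Q : List (List Bool)) : List (List Bool) :=
  F.filter fun X => (R.all fun y => !X.getD y false) || Sl.any fun S =>
    (R.all fun y => !S.getD y false || X.getD y false) &&
    has R Q (R.map fun y => X.getD y false && !(S.getD y false || (sucL R M S).getD y false)) &&
    has R Q (R.map fun y => X.getD y false && (sucL R M S).getD y false)

theorem sz_filter {β : Type} [Enc β] (l : List β) (p : β → Bool) : sz (l.filter p) ≤ sz l := by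
  induction l with
  | nil => simp
  | cons a l ih => rw [List.filter_cons]; split_ifs <;> simp <;> omega

/-- The dynamic program. -/
def dpL (R : List ℕ) (M Sl F : List (List Bool)) : List (List Bool) :=
  (round R M Sl F)^[(0 :: R).length] []

@[fun_prop] theorem PT_dpL {R : α → List ℕ} {M Sl F : α → List (List Bool)} (hR : PT R)
    (hM : PT M) (hS : PT Sl) (hF : PT F) : PT (fun a => dpL (R a) (M a) (Sl a) (F a)) := by
  unfold dpL
  refine PT.iterate (h := fun a Q => round (R a) (M a) (Sl a) (F a) Q)
    (by unfold round; fun_prop) (by fun_prop) (by fun_prop) (fun a => sz (F a)) (by fun_prop)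
    fun a i _ => ?_
  rcases i with _ | i
  · exact sz_pos _
  · rw [Function.iterate_succ_apply']
    exact sz_filter _ _

/-- The list of all jobs after padding. -/
def jobs (m : ℕ) (d : List (List ℕ) × ℕ) : List ℕ :=
  List.range (((List.range d.1.length).filter fun i => decide (i < d.2)).flatMap
    fun _ => List.replicate m ()).length

@[fun_prop] theorem PT_jobs (m : ℕ) {d : α → List (List ℕ) × ℕ} (hd : PT d) :
    PT (fun a => jobs m (d a)) := by
  unfold jobs
  have h1 : PT (fun a => List.range (d a).1.length) := PT.range_length (by fun_prop)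
  exact PT.range_length (by fun_prop)

/-- The counter for the number of layers. -/
def cntL (R : List ℕ) : List Unit := () :: R.length.bits.map fun _ => ()

@[fun_prop] theorem PT_cntL {R : α → List ℕ} (hR : PT R) : PT (fun a => cntL (R a)) := by
  unfold cntL; fun_prop

/-- The decision for given padded jobs and closure matrix. -/
def core (m : ℕ) (R : List ℕ) (M : List (List Bool)) (fuel : List Unit) : Bool :=
  has R (dpL R M (slots m R M) (famL R M (slots m R M) (phis R (terms m R M) fuel (cntL R))))
    (R.map fun _ => true)

@[fun_prop] theorem PT_core (m : ℕ) {R : α → List ℕ} {M : α → List (List Bool)}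
    {fuel : α → List Unit} (hR : PT R) (hM : PT M) (hf : PT fuel) :
    PT (fun a => core m (R a) (M a) (fuel a)) := by
  unfold core; fun_prop

/-- The whole algorithm. -/
def solve (m : ℕ) (d : List (List ℕ) × ℕ) (fuel : List Unit) : Bool :=
  decide (d.1.length ≤ (jobs m d).length) && core m (jobs m d) (clos (jobs m d) d.1) fuel

@[fun_prop] theorem PT_solve (m : ℕ) {d : α → List (List ℕ) × ℕ} {fuel : α → List Unit}
    (hd : PT d) (hf : PT fuel) : PT (fun a => solve m (d a) (fuel a)) := by
  unfold solve; fun_prop

end Vale.Agent.P324.QP
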