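import Vale.Agent.P324.QPAlg
import Vale.Agent.P324.QPMain

/-!
Correctness of the bit list program.
-/

namespace Vale.Agent.P324.QP

open Finset

/-- The set coded by a bit list. -/
def toS (N : ℕ) (l : List Bool) : Finset (Fin N) := univ.filter fun v => l.getD v false = true

/-- The relation coded by a matrix. -/
def rel (N : ℕ) (M : List (List Bool)) (u v : Fin N) : Prop := gm M u v = true

instance (N : ℕ) (M : List (List Bool)) : DecidableRel (rel N M) :=
  fun _ _ => inferInstanceAs (Decidable (_ = true))

variable {N m : ℕ} {M : List (List Bool)}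

theorem getD_range {β : Type} (p : ℕ → β) (d : β) {v : ℕ} (hv : v < N) :
    ((List.range N).map p).getD v d = p v := by
  simp [List.getD_eq_getElem?_getD, hv]

theorem mem_toS {l : List Bool} {v : Fin N} : v ∈ toS N l ↔ l.getD v false = true := by
  simp only [toS, mem_filter, mem_univ, true_and]

theorem mem_toS_map {p : ℕ → Bool} {v : Fin N} :
    v ∈ toS N ((List.range N).map p) ↔ p v = true := by
  rw [mem_toS, getD_range p false v.2]

theorem any_range {p : ℕ → Bool} : (List.range N).any p = true ↔ ∃ v : Fin N, p v = true := by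
  rw [List.any_eq_true]
  exact ⟨fun ⟨x, hx, h⟩ => ⟨⟨x, List.mem_range.1 hx⟩, h⟩,
    fun ⟨v, h⟩ => ⟨v, List.mem_range.2 v.2, h⟩⟩

theorem all_range {p : ℕ → Bool} : (List.range N).all p = true ↔ ∀ v : Fin N, p v = true := by
  rw [List.all_eq_true]
  exact ⟨fun h v => h v (List.mem_range.2 v.2), fun h x hx => h ⟨x, List.mem_range.1 hx⟩⟩

theorem length_filter_range (p : ℕ → Bool) :
    ((List.range N).filter p).length = (univ.filter fun v : Fin N => p v = true).card := by
  rw [← List.toFinset_card_of_nodup (List.nodup_range.filter _)]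
  symm
  refine card_bij (fun v _ => v.val) (fun v hv => ?_) (fun a _ b _ h => Fin.ext h) fun x hx => ?_
  · simpa using hv
  · simp only [List.mem_toFinset, List.mem_filter, List.mem_range] at hx
    exact ⟨⟨x, hx.1⟩, by simpa using hx.2, rfl⟩

theorem toS_true : toS N ((List.range N).map fun _ => true) = univ := by
  ext v; rw [mem_toS_map]; simp

theorem toS_false : toS N ((List.range N).map fun _ => false) = ∅ := by
  ext v; rw [mem_toS_map]; simp

theorem mem_tuples {R : List ℕ} {t : List ℕ} (h : ∀ x ∈ t, x ∈ R) : t ∈ tuples R t.length := by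
  induction t with
  | nil => simp [tuples]
  | cons x t ih =>
    simp only [tuples, List.length_cons, List.mem_flatMap, List.mem_map]
    exact ⟨x, h x (by simp), t, ih fun y hy => h y (by simp [hy]), rfl⟩

theorem slot_test (s : List Bool) :
    (decide (((List.range N).filter fun y => s.getD y false).length = m) &&
      (List.range N).all fun u => (List.range N).all fun v =>
        !(s.getD u false && s.getD v false && gm M u v)) = true ↔
      Slot (rel N M) m (toS N s) := by
  rw [Bool.and_eq_true, decide_eq_true_iff, length_filter_range, all_range, Slot]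
  refine and_congr Iff.rfl ?_
  simp only [all_range, mem_toS, rel]
  refine forall_congr' fun u => ?_
  constructor
  · intro h hu v hv huv
    have := h v
    rw [hu, hv, huv] at this
    simp at this
  · intro h v
    cases hu : s.getD u false <;> cases hv : s.getD v false <;> cases huv : gm M u v <;>
      first | rfl | exact absurd huv (h hu v hv)

theorem slots_sound {s : List Bool} (h : s ∈ slots m (List.range N) M) :
    Slot (rel N M) m (toS N s) := (slot_test s).1 (List.mem_filter.1 h).2

theorem slots_complete {S : Finset (Fin N)} (h : Slot (rel N M) m S) :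
    ∃ s ∈ slots m (List.range N) M, toS N s = S := by
  have e : toS N ((List.range N).map fun y => (S.toList.map Fin.val).any
      fun x => decide (x = y)) = S := by
    ext v
    simp [mem_toS_map, Fin.val_inj]
  refine ⟨_, List.mem_filter.2 ⟨List.mem_map.2 ⟨S.toList.map Fin.val, ?_, rfl⟩,
    (slot_test _).2 (e.symm ▸ h)⟩, e⟩
  have := mem_tuples (R := List.range N) (t := S.toList.map Fin.val) (fun x hx => by
    obtain ⟨v, -, rfl⟩ := List.mem_map.1 hx
    exact List.mem_range.2 v.2)
  rwa [List.length_map, length_toList, h.1] at this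

theorem toS_ancL (s : List Bool) :
    toS N (ancL (List.range N) M s) = anc (rel N M) (toS N s) := by
  ext v
  rw [ancL, mem_toS_map]
  simp only [any_range, mem_anc, mem_toS, rel, Bool.and_eq_true]

theorem toS_sucL (s : List Bool) :
    toS N (sucL (List.range N) M s) = suc (rel N M) (toS N s) := by
  ext v
  rw [sucL, mem_toS_map]
  simp only [any_range, mem_suc, mem_toS, rel, Bool.and_eq_true]

/-- The key on `Fin N`. -/
def keyF (N : ℕ) (M : List (List Bool)) (y : Fin N) : ℕ := keyL (List.range N) M y

theorem keyF_inj : Function.Injective (keyF N M) := fun a b h => by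
  have := congrArg (· % N) h
  simp only [keyF, keyL, List.length_range, Nat.mul_add_mod_of_lt a.2,
    Nat.mul_add_mod_of_lt b.2] at this
  exact Fin.ext this

theorem keyF_anti (tr : ∀ a b c, rel N M a b → rel N M b c → rel N M a c)
    (irr : ∀ a, ¬ rel N M a a) (a b : Fin N) (h : rel N M a b) : keyF N M b < keyF N M a := by
  simp only [keyF, keyL, List.length_range, length_filter_range]
  have := card_lt_card (s := univ.filter fun v : Fin N => gm M b v = true)
    (t := univ.filter fun v : Fin N => gm M a v = true)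
    ⟨fun v hv => mem_filter.2 ⟨mem_univ _, tr a b v h (mem_filter.1 hv).2⟩,
      fun hn => irr b (mem_filter.1 (hn (mem_filter.2 ⟨mem_univ b, h⟩))).2⟩
  have h2 := Nat.mul_le_mul_right N (Nat.succ_le_of_lt this)
  have := b.2
  rw [Nat.succ_mul] at h2
  omega

theorem terms_complete {p : Finset (Fin N) × ℕ} (h : Term (rel N M) m (keyF N M) p) :
    ∃ t ∈ terms m (List.range N) M, ∀ y, y ∈ toS N t ↔ y ∈ p.1 ∧ p.2 ≤ keyF N M y := by
  obtain ⟨A, hA, eA⟩ : ∃ A ∈ ((List.range N).map fun _ => true) ::
      (slots m (List.range N) M).map (ancL (List.range N) M), toS N A = p.1 := by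
    rcases h.1 with e | ⟨S, hS, e⟩
    · exact ⟨_, List.mem_cons_self, by rw [e, toS_true]⟩
    · obtain ⟨s, hs, rfl⟩ := slots_complete hS
      exact ⟨_, List.mem_cons_of_mem _ (List.mem_map.2 ⟨s, hs, rfl⟩), by rw [e, toS_ancL]⟩
  have hθ : p.2 ∈ 0 :: (List.range N).map fun z => keyL (List.range N) M z + 1 := by
    rcases h.2 with e | ⟨z, e⟩
    · rw [e]; exact List.mem_cons_self
    · exact List.mem_cons_of_mem _ (List.mem_map.2 ⟨z, List.mem_range.2 z.2, e.symm⟩)
  refine ⟨_, List.mem_cons_of_mem _ (List.mem_flatMap.2 ⟨A, hA, List.mem_map.2 ⟨p.2, hθ, rfl⟩⟩),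
    fun y => ?_⟩
  rw [mem_toS_map, ← eA, mem_toS, Bool.and_eq_true, decide_eq_true_iff]; rfl

theorem more_length (R : List ℕ) (Ts P : List (List Bool)) :
    (more R Ts P).length = P.length * Ts.length := by
  simp [more, List.length_flatMap]

theorem moreF_iter {R : List ℕ} {Ts : List (List Bool)} {fuel : List Unit} (hT : 0 < Ts.length)
    (P₀ : List Bool) (j : ℕ) (hf : Ts.length ^ j ≤ fuel.length) :
    (moreF R Ts fuel)^[j] [P₀] = (more R Ts)^[j] [P₀] ∧
      ((more R Ts)^[j] [P₀]).length = Ts.length ^ j := by
  induction j with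
  | zero => simp
  | succ j ih =>
    obtain ⟨h1, h2⟩ := ih ((Nat.pow_le_pow_right hT (by omega)).trans hf)
    rw [Function.iterate_succ_apply', Function.iterate_succ_apply', h1]
    have h3 : (more R Ts ((more R Ts)^[j] [P₀])).length = Ts.length ^ (j + 1) := by
      rw [more_length, h2, pow_succ]
    exact ⟨by rw [moreF, List.map_fst_zip (by omega)], h3⟩

theorem more_complete (j : ℕ) : ∀ Ls : List (Finset (Fin N) × ℕ),
    (∀ p ∈ Ls, Term (rel N M) m (keyF N M) p) → Ls.length ≤ j →
    ∃ F ∈ (more (List.range N) (terms m (List.range N) M))^[j] [(List.range N).map fun _ => false],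
      toS N F = Phi (keyF N M) Ls := by
  induction j with
  | zero =>
    intro Ls _ h
    obtain rfl := List.length_eq_zero_iff.1 (Nat.le_zero.1 h)
    exact ⟨_, List.mem_singleton_self _, by rw [toS_false]; ext y; simp [mem_Phi]⟩
  | succ j ih =>
    intro Ls hL h
    rw [Function.iterate_succ_apply']
    rcases Ls with _ | ⟨p, Ls⟩
    · obtain ⟨F, hF, e⟩ := ih [] hL (by simp)
      refine ⟨_, List.mem_flatMap.2 ⟨F, hF, List.mem_map.2 ⟨_, List.mem_cons_self, rfl⟩⟩, ?_⟩
      ext y
      rw [mem_toS_map, getD_range _ _ y.2, Bool.or_false, ← mem_toS, e]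
    · obtain ⟨F, hF, e⟩ := ih Ls (fun q hq => hL q (List.mem_cons_of_mem _ hq))
        (by simpa using h)
      obtain ⟨t, ht, et⟩ := terms_complete (hL p List.mem_cons_self)
      refine ⟨_, List.mem_flatMap.2 ⟨F, hF, List.mem_map.2 ⟨t, ht, rfl⟩⟩, ?_⟩
      ext y
      rw [mem_toS_map, Bool.or_eq_true, ← mem_toS, ← mem_toS, e, et, mem_Phi, mem_Phi]
      simp only [List.mem_cons, exists_eq_or_imp, or_comm]

theorem toS_diff (X S : List Bool) : toS N ((List.range N).map fun y => X.getD y false &&
    !(S.getD y false || (sucL (List.range N) M S).getD y false)) =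
    toS N X \ up (rel N M) (toS N S) := by
  ext y
  rw [mem_toS_map, mem_sdiff, up, mem_union, ← toS_sucL, mem_toS, mem_toS, mem_toS]
  simp

theorem toS_inter (X S : List Bool) : toS N ((List.range N).map fun y => X.getD y false &&
    (sucL (List.range N) M S).getD y false) = toS N X ∩ suc (rel N M) (toS N S) := by
  ext y
  rw [mem_toS_map, mem_inter, ← toS_sucL, mem_toS, mem_toS, Bool.and_eq_true]

theorem fam_complete {fuel : List Unit}
    (hf : (terms m (List.range N) M).length ^ (cntL (List.range N)).length ≤ fuel.length)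
    {X : Finset (Fin N)} (h : Fam (rel N M) m (keyF N M) X) :
    ∃ l ∈ famL (List.range N) M (slots m (List.range N) M)
      (phis (List.range N) (terms m (List.range N) M) fuel (cntL (List.range N))), toS N l = X := by
  obtain ⟨U, Ls, S, hU, hL, hlen, hS, rfl⟩ := h
  have hc : Ls.length ≤ (cntL (List.range N)).length := by
    simp only [cntL, List.length_cons, List.length_map, List.length_range, Nat.size_eq_bits_len]
    rw [Fintype.card_fin] at hlen
    refine hlen.trans (Nat.succ_le_succ ?_)
    rcases N.eq_zero_or_pos with rfl | hN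
    · simp
    · exact (Nat.lt_size.2 (Nat.pow_log_le_self 2 hN.ne')).le
  obtain ⟨F, hF, eF⟩ := more_complete _ Ls hL hc
  rw [← (moreF_iter (by simp [terms]) _ _ hf).1] at hF
  obtain ⟨u, hu, eu⟩ : ∃ u ∈ ((List.range N).map fun _ => true) ::
      (slots m (List.range N) M).map (sucL (List.range N) M), toS N u = U := by
    rcases hU with e | ⟨S, hS, e⟩
    · exact ⟨_, List.mem_cons_self, by rw [e, toS_true]⟩
    · obtain ⟨s, hs, rfl⟩ := slots_complete hS
      exact ⟨_, List.mem_cons_of_mem _ (List.mem_map.2 ⟨s, hs, rfl⟩), by rw [e, toS_sucL]⟩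
  obtain ⟨s, hs, es⟩ : ∃ s ∈ ((List.range N).map fun _ => false) :: slots m (List.range N) M,
      toS N s = S := by
    rcases hS with e | hS
    · exact ⟨_, List.mem_cons_self, by rw [e, toS_false]⟩
    · obtain ⟨s, hs, rfl⟩ := slots_complete hS
      exact ⟨_, List.mem_cons_of_mem _ hs, rfl⟩
  refine ⟨_, List.mem_flatMap.2 ⟨u, hu, List.mem_flatMap.2 ⟨F, hF, List.mem_map.2 ⟨s, hs, rfl⟩⟩⟩, ?_⟩
  ext y
  rw [mem_toS_map, mem_sdiff, mem_inter, ← eu, ← eF, ← es, up, mem_union, ← toS_sucL, mem_toS,
    mem_toS, mem_toS, mem_toS]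
  simp

theorem has_iff {Q : List (List Bool)} {X : List Bool} :
    has (List.range N) Q X = true ↔ ∃ l ∈ Q, toS N l = toS N X := by
  simp only [has, List.any_eq_true, all_range, Finset.ext_iff, mem_toS]
  refine exists_congr fun l => and_congr Iff.rfl (forall_congr' fun y => ?_)
  cases l.getD y false <;> cases X.getD y false <;> simp

theorem mem_round {F Q : List (List Bool)} {X : List Bool} :
    X ∈ round (List.range N) M (slots m (List.range N) M) F Q ↔ X ∈ F ∧ (toS N X = ∅ ∨
      ∃ S, Slot (rel N M) m S ∧ S ⊆ toS N X ∧ (∃ l ∈ Q, toS N l = toS N X \ up (rel N M) S) ∧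
        ∃ l ∈ Q, toS N l = toS N X ∩ suc (rel N M) S) := by
  have e1 : ∀ S : List Bool, ((List.range N).all fun y => !S.getD y false || X.getD y false) = true
      ↔ toS N S ⊆ toS N X := fun S => by
    simp only [all_range, subset_iff, mem_toS]
    refine forall_congr' fun y => ?_
    cases S.getD y false <;> cases X.getD y false <;> simp
  rw [round, List.mem_filter, Bool.or_eq_true, all_range, List.any_eq_true]
  refine and_congr Iff.rfl (or_congr ?_ ?_)
  · simp only [eq_empty_iff_forall_notMem, mem_toS]
    refine forall_congr' fun y => ?_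
    cases X.getD y false <;> simp
  · simp only [Bool.and_eq_true, e1, has_iff, toS_diff, toS_inter]
    constructor
    · rintro ⟨s, hs, ⟨h1, h2⟩, h3⟩
      exact ⟨_, slots_sound hs, h1, h2, h3⟩
    · rintro ⟨S, hS, h1, h2, h3⟩
      obtain ⟨s, hs, rfl⟩ := slots_complete hS
      exact ⟨s, hs, ⟨h1, h2⟩, h3⟩

theorem round_sound (F : List (List Bool)) (i : ℕ) :
    ∀ X ∈ (round (List.range N) M (slots m (List.range N) M) F)^[i] [],
      Dp (rel N M) m (fun _ => True) i (toS N X) := by
  induction i with
  | zero => simp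
  | succ i ih =>
    intro X hX
    rw [Function.iterate_succ_apply', mem_round] at hX
    refine ⟨trivial, hX.2.imp_right ?_⟩
    rintro ⟨S, hS, h1, ⟨l, hl, e⟩, l', hl', e'⟩
    exact ⟨S, hS, h1, e ▸ ih l hl, e' ▸ ih l' hl'⟩

theorem round_complete {F : List (List Bool)} {G : Finset (Fin N) → Prop}
    (hF : ∀ X, G X → ∃ l ∈ F, toS N l = X) (i : ℕ) : ∀ X, Dp (rel N M) m G i X →
    ∃ l ∈ (round (List.range N) M (slots m (List.range N) M) F)^[i] [], toS N l = X := by
  induction i with
  | zero => intro X h; exact h.elim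
  | succ i ih =>
    intro X h
    obtain ⟨l, hl, rfl⟩ := hF X h.1
    refine ⟨l, ?_, rfl⟩
    rw [Function.iterate_succ_apply', mem_round]
    refine ⟨hl, h.2.imp_right ?_⟩
    rintro ⟨S, hS, h1, h2, h3⟩
    exact ⟨S, hS, h1, ih _ h2, ih _ h3⟩

theorem core_iff (hm : 0 < m) (tr : ∀ a b c, rel N M a b → rel N M b c → rel N M a c)
    {fuel : List Unit}
    (hf : (terms m (List.range N) M).length ^ (cntL (List.range N)).length ≤ fuel.length) :
    core m (List.range N) M fuel = true ↔ Feas (rel N M) m univ := by
  rw [core, has_iff, toS_true, dpL, List.length_cons, List.length_range]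
  constructor
  · rintro ⟨l, hl, e⟩
    exact e ▸ (round_sound _ _ l hl).feas tr
  · intro h
    have := (dp_iff hm tr (keyF_anti tr) keyF_inj).2 h
    rw [Fintype.card_fin] at this
    exact round_complete (fun X hX => fam_complete hf hX) _ _ this

theorem gm_mat (p : ℕ → ℕ → Bool) {u v : ℕ} (hu : u < N) (hv : v < N) :
    gm ((List.range N).map fun u => (List.range N).map (p u)) u v = p u v := by
  rw [gm, getD_range _ _ hu, getD_range _ _ hv]

theorem rel_wstep (k u v : Fin N) : rel N (wstep (List.range N) M k) u v ↔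
    rel N M u v ∨ (rel N M u k ∧ rel N M k v) := by
  simp only [rel, wstep, gm_mat _ u.2 v.2, Bool.or_eq_true, Bool.and_eq_true]

theorem clos_spec (adj : List (List ℕ)) :
    (∀ u v : Fin N, (v : ℕ) ∈ adj.getD u [] → rel N (clos (List.range N) adj) u v) ∧
    (∀ u v : Fin N, rel N (clos (List.range N) adj) u v →
      Relation.TransGen (fun a b : Fin N => (b : ℕ) ∈ adj.getD a []) u v) ∧
    ∀ a b c, rel N (clos (List.range N) adj) a b → rel N (clos (List.range N) adj) b c →
      rel N (clos (List.range N) adj) a c := by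
  have key : ∀ L : List ℕ, (∀ k ∈ L, k < N) →
      (∀ u v : Fin N, (v : ℕ) ∈ adj.getD u [] →
        rel N (L.foldl (wstep (List.range N)) (arcM (List.range N) adj)) u v) ∧
      (∀ u v : Fin N, rel N (L.foldl (wstep (List.range N)) (arcM (List.range N) adj)) u v →
        Relation.TransGen (fun a b : Fin N => (b : ℕ) ∈ adj.getD a []) u v) ∧
      ∀ a b c : Fin N, (b : ℕ) ∈ L →
        rel N (L.foldl (wstep (List.range N)) (arcM (List.range N) adj)) a b →
        rel N (L.foldl (wstep (List.range N)) (arcM (List.range N) adj)) b c →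
        rel N (L.foldl (wstep (List.range N)) (arcM (List.range N) adj)) a c := by
    intro L
    induction L using List.reverseRecOn with
    | nil =>
      intro _
      have e : ∀ u v : Fin N, rel N (arcM (List.range N) adj) u v ↔ (v : ℕ) ∈ adj.getD u [] :=
        fun u v => by simp only [rel, arcM, gm_mat _ u.2 v.2, List.any_eq_true,
          decide_eq_true_iff, exists_eq_right]
      exact ⟨fun u v h => (e u v).2 h, fun u v h => .single ((e u v).1 h), by simp⟩
    | append_singleton L k ih =>
      intro hL
      obtain ⟨h1, h2, h3⟩ := ih fun k hk => hL k (by simp [hk])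
      obtain ⟨k, rfl⟩ : ∃ k' : Fin N, k = k' := ⟨⟨k, hL k (by simp)⟩, rfl⟩
      simp only [List.foldl_append, List.foldl_cons, List.foldl_nil, rel_wstep]
      refine ⟨fun u v h => Or.inl (h1 u v h), fun u v h => ?_, fun a b c hb => ?_⟩
      · rcases h with h | ⟨h, h'⟩
        · exact h2 u v h
        · exact (h2 _ _ h).trans (h2 _ _ h')
      · rcases List.mem_append.1 hb with hb | hb
        · have g1 := h3 a b c hb
          have g2 := h3 k b c hb
          have g3 := h3 a b k hb
          tauto
        · obtain rfl : b = k := Fin.ext (by simpa using hb)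
          tauto
  obtain ⟨h1, h2, h3⟩ := key (List.range N) fun k hk => List.mem_range.1 hk
  exact ⟨h1, h2, fun a b c => h3 a b c (List.mem_range.2 b.2)⟩

end Vale.Agent.P324.QP
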