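import Vale.Agent.P324.QPSched

/-!
Layered priority orders and their update rule.
-/

namespace Vale.Agent.P324.QP

open Finset

variable {V : Type} [Fintype V] [DecidableEq V] {lt : V → V → Prop} [DecidableRel lt] {m : ℕ}

/-- The index of the first layer containing `y`. -/
def lay (key : V → ℕ) (Ls : List (Finset V × ℕ)) (y : V) : ℕ :=
  Ls.findIdx fun p => decide (y ∈ p.1 ∧ p.2 ≤ key y)

/-- The union of the layers. -/
def Phi (key : V → ℕ) (Ls : List (Finset V × ℕ)) : Finset V :=
  univ.filter fun y => ∃ p ∈ Ls, y ∈ p.1 ∧ p.2 ≤ key y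

/-- The priority: earlier layers first, then larger keys. -/
def rk (key : V → ℕ) (B : ℕ) (Ls : List (Finset V × ℕ)) (y : V) : ℕ :=
  (Ls.length - lay key Ls y) * B + key y

/-- Admissible layers. -/
def Term (lt : V → V → Prop) [DecidableRel lt] (m : ℕ) (key : V → ℕ) (p : Finset V × ℕ) : Prop :=
  (p.1 = univ ∨ ∃ S, Slot lt m S ∧ p.1 = anc lt S) ∧ (p.2 = 0 ∨ ∃ z, p.2 = key z + 1)

variable {key : V → ℕ} {B : ℕ} {Ls : List (Finset V × ℕ)}

theorem mem_Phi {y : V} : y ∈ Phi key Ls ↔ ∃ p ∈ Ls, y ∈ p.1 ∧ p.2 ≤ key y := by simp [Phi]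

theorem mem_Phi_iff {y : V} : y ∈ Phi key Ls ↔ lay key Ls y < Ls.length := by
  rw [mem_Phi, lay, List.findIdx_lt_length]; simp

omit [Fintype V] in
theorem lay_le (y : V) : lay key Ls y ≤ Ls.length := List.findIdx_le_length

omit [Fintype V] in
theorem lay_le_of {y : V} {i : ℕ} (hi : i < Ls.length) (h : y ∈ Ls[i].1 ∧ Ls[i].2 ≤ key y) :
    lay key Ls y ≤ i := by
  by_contra hn
  have := List.not_of_lt_findIdx (xs := Ls) (p := fun p => decide (y ∈ p.1 ∧ p.2 ≤ key y))
    (i := i) (by unfold lay at hn; omega)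
  simp only [decide_eq_false_iff_not] at this
  exact this h

omit [Fintype V] in
theorem lay_spec {y : V} (h : lay key Ls y < Ls.length) :
    y ∈ Ls[lay key Ls y].1 ∧ Ls[lay key Ls y].2 ≤ key y := by
  have := @List.findIdx_getElem _ (fun p : Finset V × ℕ => decide (y ∈ p.1 ∧ p.2 ≤ key y)) Ls h
  exact of_decide_eq_true this

omit [Fintype V] in
theorem lay_take_append (y : V) {a : ℕ} (ha : a ≤ Ls.length) (R : List (Finset V × ℕ)) :
    lay key (Ls.take a ++ R) y =
      if lay key Ls y < a then lay key Ls y else lay key R y + a := by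
  unfold lay
  rw [List.findIdx_append, List.findIdx_take, List.length_take, min_eq_left ha]
  split_ifs <;> omega

theorem Term.down (tr : ∀ a b c, lt a b → lt b c → lt a c) (hk : ∀ a b, lt a b → key b < key a)
    {p : Finset V × ℕ} (hp : Term lt m key p) {y y' : V} (h : lt y y')
    (h' : y' ∈ p.1 ∧ p.2 ≤ key y') : y ∈ p.1 ∧ p.2 ≤ key y := by
  refine ⟨?_, h'.2.trans (hk _ _ h).le⟩
  rcases hp.1 with e | ⟨S, -, e⟩
  · rw [e]; exact mem_univ _
  · have := h'.1
    rw [e] at this ⊢
    obtain ⟨s, hs, hys⟩ := mem_anc.1 this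
    exact mem_anc.2 ⟨s, hs, tr _ _ _ h hys⟩

theorem lay_mono (tr : ∀ a b c, lt a b → lt b c → lt a c) (hk : ∀ a b, lt a b → key b < key a)
    (hL : ∀ p ∈ Ls, Term lt m key p) {y y' : V} (h : lt y y') : lay key Ls y ≤ lay key Ls y' := by
  rcases (lay_le (key := key) (Ls := Ls) y').eq_or_lt with e | e
  · rw [e]; exact lay_le y
  · exact lay_le_of e ((hL _ (List.getElem_mem e)).down tr hk h (lay_spec e))

theorem Phi_down (tr : ∀ a b c, lt a b → lt b c → lt a c) (hk : ∀ a b, lt a b → key b < key a)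
    (hL : ∀ p ∈ Ls, Term lt m key p) {y y' : V} (h : lt y y') (h' : y' ∈ Phi key Ls) :
    y ∈ Phi key Ls :=
  mem_Phi_iff.2 ((lay_mono tr hk hL h).trans_lt (mem_Phi_iff.1 h'))

omit [Fintype V] in
theorem rk_lt_iff (hB : ∀ v, key v < B) {w y : V} : rk key B Ls w < rk key B Ls y ↔
    lay key Ls y < lay key Ls w ∨ (lay key Ls y = lay key Ls w ∧ key w < key y) := by
  have h1 := lay_le (key := key) (Ls := Ls) w
  have h2 := lay_le (key := key) (Ls := Ls) y
  have h3 := hB w
  have h4 := hB y
  unfold rk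
  rcases lt_trichotomy (lay key Ls y) (lay key Ls w) with c | c | c
  · refine ⟨fun _ => Or.inl c, fun _ => ?_⟩
    have : (Ls.length - lay key Ls w + 1) * B ≤ (Ls.length - lay key Ls y) * B :=
      Nat.mul_le_mul_right _ (by omega)
    nlinarith
  · rw [c]; omega
  · refine ⟨fun h => ?_, fun h => by omega⟩
    have : (Ls.length - lay key Ls y + 1) * B ≤ (Ls.length - lay key Ls w) * B :=
      Nat.mul_le_mul_right _ (by omega)
    nlinarith

omit [Fintype V] in
theorem rk_ne (hB : ∀ v, key v < B) (hi : Function.Injective key) {w y : V} (h : w ≠ y) :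
    rk key B Ls w < rk key B Ls y ∨ rk key B Ls y < rk key B Ls w := by
  rw [rk_lt_iff hB, rk_lt_iff hB]
  have : key w ≠ key y := fun e => h (hi e)
  omega

theorem rk_anti (tr : ∀ a b c, lt a b → lt b c → lt a c) (hk : ∀ a b, lt a b → key b < key a)
    (hB : ∀ v, key v < B) (hL : ∀ p ∈ Ls, Term lt m key p) {y y' : V} (h : lt y y') :
    rk key B Ls y' < rk key B Ls y := by
  rw [rk_lt_iff hB]
  have := lay_mono tr hk hL h
  have := hk _ _ h
  omega

theorem update (hB : ∀ v, key v < B) (hi : Function.Injective key)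
    (hL : ∀ p ∈ Ls, Term lt m key p) {N : ℕ} (hlen : Ls.length ≤ Nat.log 2 N + 1)
    {S X : Finset V} (hS : S = ∅ ∨ Slot lt m S) (hX : X ⊆ Phi key Ls)
    (hsz : ∀ a, (X.filter fun y => a ≤ lay key Ls y).card * 2 ^ a ≤ N)
    {z : V} (hz : z ∈ X) (hzS : z ∉ anc lt S)
    (hmin : ∀ y ∈ X, rk key B Ls y < rk key B Ls z → y ∈ anc lt S) :
    ∃ Ls' : List (Finset V × ℕ), (∀ p ∈ Ls', Term lt m key p) ∧
      Ls'.length ≤ Nat.log 2 N + 1 ∧ X.erase z ⊆ Phi key Ls' ∧ z ∉ Phi key Ls' ∧
      (∀ y ∈ Phi key Ls', y ∈ anc lt S ∨ (y ∈ Phi key Ls ∧ rk key B Ls z < rk key B Ls y)) ∧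
      ∀ b, ((X.erase z).filter fun y => b ≤ lay key Ls' y).card * 2 ^ b ≤ N := by
  have ha := mem_Phi_iff.1 (hX hz)
  have hspec := lay_spec ha
  generalize hA : Ls[lay key Ls z] = P at hspec
  have hP : Term lt m key P := hA ▸ hL _ (List.getElem_mem ha)
  have hPy : ∀ y, lay key Ls y = lay key Ls z → y ∈ P.1 := fun y e => by
    have := (lay_spec (y := y) (e ▸ ha)).1
    simp only [e] at this
    rwa [hA] at this
  have hPle : ∀ y, y ∈ P.1 → key z < key y → lay key Ls y ≤ lay key Ls z := fun y h1 h2 =>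
    lay_le_of ha (by rw [hA]; exact ⟨h1, by omega⟩)
  generalize hadef : lay key Ls z = a at *
  set q : Finset V × ℕ := (P.1, key z + 1) with hq
  have hqT : Term lt m key q := ⟨hP.1, Or.inr ⟨z, rfl⟩⟩
  set W := X.filter fun y => rk key B Ls y < rk key B Ls z with hW
  have hWS : ∀ y ∈ W, y ∈ anc lt S := fun y hy => hmin y (mem_filter.1 hy).1 (mem_filter.1 hy).2
  have hWa : W ⊆ (X.filter fun y => a ≤ lay key Ls y).erase z := fun y hy => by
    have h1 := mem_filter.1 hy
    have h2 := (rk_lt_iff hB).1 h1.2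
    refine mem_erase.2 ⟨fun e => by rw [e] at h1; omega, mem_filter.2 ⟨h1.1, by omega⟩⟩
  have hhigh : ∀ y ∈ X.erase z, y ∉ W → lay key Ls y < a ∨ (y ∈ q.1 ∧ q.2 ≤ key y) := by
    intro y hy hyW
    have h1 := mem_erase.1 hy
    rcases rk_ne (Ls := Ls) hB hi h1.1 with c | c
    · exact absurd (mem_filter.2 ⟨h1.2, c⟩) hyW
    · rcases (rk_lt_iff hB).1 c with d | d
      · left; omega
      · right; exact ⟨hPy y (by omega), by simp only [hq]; omega⟩
  -- the common part
  have main : ∀ R : List (Finset V × ℕ), (∀ p ∈ R, p = q ∨ (p = (anc lt S, 0) ∧ Slot lt m S)) →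
      q ∈ R → (W.Nonempty → (anc lt S, 0) ∈ R) → R.length ≤ 2 →
      a + R.length ≤ Nat.log 2 N + 1 →
      ((X.erase z).filter fun y => a ≤ lay key Ls y ∧ 1 ≤ lay key R y).card * 2 ^ (a + 1) ≤ N →
      ∃ Ls' : List (Finset V × ℕ), (∀ p ∈ Ls', Term lt m key p) ∧
      Ls'.length ≤ Nat.log 2 N + 1 ∧ X.erase z ⊆ Phi key Ls' ∧ z ∉ Phi key Ls' ∧
      (∀ y ∈ Phi key Ls', y ∈ anc lt S ∨ (y ∈ Phi key Ls ∧ rk key B Ls z < rk key B Ls y)) ∧
      ∀ b, ((X.erase z).filter fun y => b ≤ lay key Ls' y).card * 2 ^ b ≤ N := by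
    intro R hR hqR hWR hR2 hRlen hcount
    have hl : (Ls.take a ++ R).length = a + R.length := by
      rw [List.length_append, List.length_take, min_eq_left ha.le]
    have hiff : ∀ y, y ∈ Phi key (Ls.take a ++ R) ↔ lay key Ls y < a ∨ y ∈ Phi key R := fun y => by
      rw [mem_Phi_iff, mem_Phi_iff, lay_take_append y ha.le, hl]
      split_ifs <;> omega
    have hsub : X.erase z ⊆ Phi key (Ls.take a ++ R) := fun y hy => by
      rw [hiff]
      by_cases c : y ∈ W
      · exact Or.inr (mem_Phi.2 ⟨_, hWR ⟨y, c⟩, hWS y c, Nat.zero_le _⟩)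
      · rcases hhigh y hy c with d | d
        · exact Or.inl d
        · exact Or.inr (mem_Phi.2 ⟨_, hqR, d⟩)
    refine ⟨Ls.take a ++ R, fun p hp => ?_, by omega, hsub, ?_, fun y hy => ?_, fun b => ?_⟩
    · rcases List.mem_append.1 hp with c | c
      · exact hL p (List.mem_of_mem_take c)
      · rcases hR p c with rfl | ⟨rfl, d⟩
        · exact hqT
        · exact ⟨Or.inr ⟨S, d, rfl⟩, Or.inl rfl⟩
    · rw [hiff]
      rintro (c | c)
      · omega
      · obtain ⟨p, hp, h1, h2⟩ := mem_Phi.1 c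
        rcases hR p hp with rfl | ⟨rfl, -⟩
        · simp only [hq] at h2; omega
        · exact hzS h1
    · rcases (hiff y).1 hy with c | c
      · exact Or.inr ⟨mem_Phi_iff.2 (by omega), (rk_lt_iff hB).2 (Or.inl (by omega))⟩
      · obtain ⟨p, hp, h1, h2⟩ := mem_Phi.1 c
        rcases hR p hp with rfl | ⟨rfl, -⟩
        · simp only [hq] at h1 h2
          have := hPle y h1 (by omega)
          exact Or.inr ⟨mem_Phi_iff.2 (by omega), (rk_lt_iff hB).2 (by omega)⟩
        · exact Or.inl h1
    · rcases lt_trichotomy b (a + 1) with c | c | c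
      · refine le_trans (Nat.mul_le_mul_right _ (card_le_card fun y hy => ?_)) (hsz b)
        have h1 := mem_filter.1 hy
        have h2 := h1.2
        rw [lay_take_append y ha.le] at h2
        refine mem_filter.2 ⟨(mem_erase.1 h1.1).2, ?_⟩
        split_ifs at h2 <;> omega
      · subst c
        refine le_trans (Nat.mul_le_mul_right _ (card_le_card fun y hy => ?_)) hcount
        have h1 := mem_filter.1 hy
        have h2 := h1.2
        rw [lay_take_append y ha.le] at h2
        refine mem_filter.2 ⟨h1.1, ?_⟩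
        split_ifs at h2 <;> omega
      · have : ((X.erase z).filter fun y => b ≤ lay key (Ls.take a ++ R) y) = ∅ :=
          filter_eq_empty_iff.2 fun y hy => by
            have := mem_Phi_iff.1 (hsub hy)
            omega
        rw [this]; simp
  have hq0 : ∀ (R : List (Finset V × ℕ)) y, y ∈ q.1 ∧ q.2 ≤ key y → lay key (q :: R) y = 0 :=
    fun R y h => Nat.le_zero.1 (lay_le_of (i := 0) (by simp) h)
  rcases W.eq_empty_or_nonempty with hW0 | hW0
  · refine main [q] (by simp) (by simp) (by simp [hW0]) (by simp) (by simp; omega) ?_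
    have : ((X.erase z).filter fun y => a ≤ lay key Ls y ∧ 1 ≤ lay key [q] y) = ∅ :=
      filter_eq_empty_iff.2 fun y hy => by
        rcases hhigh y hy (by simp [hW0]) with d | d
        · omega
        · have := hq0 [] y d; omega
    rw [this]; simp
  · have hSl : Slot lt m S := by
      rcases hS with rfl | h
      · obtain ⟨y, hy⟩ := hW0
        simpa using hWS y hy
      · exact h
    have hzf : z ∈ X.filter fun y => a ≤ lay key Ls y := mem_filter.2 ⟨hz, by omega⟩
    have hc1 := card_le_card hWa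
    rw [card_erase_of_mem hzf] at hc1
    have hc2 := hW0.card_pos
    have hc3 := hsz a
    have hlog : a + 1 ≤ Nat.log 2 N := by
      refine Nat.le_log_of_pow_le (by omega) (le_trans ?_ hc3)
      rw [pow_succ, mul_comm]
      exact Nat.mul_le_mul_right _ (by omega)
    by_cases c : 2 * W.card ≤ (X.filter fun y => a ≤ lay key Ls y).card
    · refine main [q, (anc lt S, 0)] (by simp [hSl]) (by simp) (by simp) (by simp)
        (by simp; omega) ?_
      have : ((X.erase z).filter fun y => a ≤ lay key Ls y ∧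
          1 ≤ lay key [q, (anc lt S, 0)] y) ⊆ W := fun y hy => by
        have h1 := mem_filter.1 hy
        by_contra hn
        rcases hhigh y h1.1 hn with d | d
        · omega
        · have := hq0 [(anc lt S, 0)] y d; omega
      have := card_le_card this
      rw [pow_succ]
      nlinarith [Nat.pos_of_ne_zero (pow_ne_zero a (two_ne_zero))]
    · refine main [(anc lt S, 0), q] (by simp [hSl]) (by simp) (by simp) (by simp)
        (by simp; omega) ?_
      have : ((X.erase z).filter fun y => a ≤ lay key Ls y ∧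
          1 ≤ lay key [(anc lt S, 0), q] y) ⊆ (X.filter fun y => a ≤ lay key Ls y) \ W :=
        fun y hy => by
          have h1 := mem_filter.1 hy
          refine mem_sdiff.2 ⟨mem_filter.2 ⟨(mem_erase.1 h1.1).2, h1.2.1⟩, fun hn => ?_⟩
          have := lay_le_of (key := key) (Ls := [(anc lt S, 0), q]) (y := y) (i := 0) (by simp)
            ⟨hWS y hn, Nat.zero_le _⟩
          omega
      have h5 := card_le_card this
      rw [card_sdiff_of_subset (hWa.trans (erase_subset _ _))] at h5
      rw [pow_succ]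
      have h6 : 2 * ((X.erase z).filter fun y => a ≤ lay key Ls y ∧
          1 ≤ lay key [(anc lt S, 0), q] y).card ≤ (X.filter fun y => a ≤ lay key Ls y).card := by
        omega
      nlinarith [Nat.pos_of_ne_zero (pow_ne_zero a (two_ne_zero))]

end Vale.Agent.P324.QP
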