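import Mathlib

/-!
Full schedules of finite sets of jobs: gluing, cutting and swapping.
-/

namespace Vale.Agent.P324.QP

open Finset

variable {V : Type} [Fintype V] [DecidableEq V] (lt : V → V → Prop) [DecidableRel lt] (m : ℕ)

/-- `τ` puts the jobs of `X` into `l` slots with exactly `m` jobs each, respecting `lt`. -/
def Sched (X : Finset V) (l : ℕ) (τ : V → ℕ) : Prop :=
  (∀ v ∈ X, τ v < l) ∧ (∀ t < l, (X.filter fun v => τ v = t).card = m) ∧
    ∀ u ∈ X, ∀ v ∈ X, lt u v → τ u < τ v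

/-- `X` has a schedule without idle places. -/
def Feas (X : Finset V) : Prop := ∃ l τ, Sched lt m X l τ

/-- Strict ancestors. -/
def anc (S : Finset V) : Finset V := univ.filter fun y => ∃ s ∈ S, lt y s

/-- Strict successors. -/
def suc (S : Finset V) : Finset V := univ.filter fun y => ∃ s ∈ S, lt s y

/-- The up-set generated by `S`. -/
def up (S : Finset V) : Finset V := S ∪ suc lt S

/-- Antichains of size `m`. -/
def Slot (S : Finset V) : Prop := S.card = m ∧ ∀ u ∈ S, ∀ v ∈ S, ¬ lt u v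

variable {lt m}

@[simp] theorem mem_anc {S : Finset V} {y : V} : y ∈ anc lt S ↔ ∃ s ∈ S, lt y s := by simp [anc]
@[simp] theorem mem_suc {S : Finset V} {y : V} : y ∈ suc lt S ↔ ∃ s ∈ S, lt s y := by simp [suc]
theorem mem_up {S : Finset V} {y : V} : y ∈ up lt S ↔ y ∈ S ∨ ∃ s ∈ S, lt s y := by simp [up]

omit [Fintype V] [DecidableRel lt] in
theorem Sched.card {X : Finset V} {l : ℕ} {τ : V → ℕ} (h : Sched lt m X l τ) :
    X.card = m * l := by
  rw [card_eq_sum_card_fiberwise (f := τ) (t := range l) (fun v hv => by simpa using h.1 v hv),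
    sum_congr rfl (fun t ht => h.2.1 t (mem_range.1 ht))]
  simp [mul_comm]

omit [Fintype V] [DecidableEq V] [DecidableRel lt] in
theorem feas_empty : Feas lt m (∅ : Finset V) := ⟨0, fun _ => 0, by simp [Sched]⟩

omit [Fintype V] [DecidableEq V] [DecidableRel lt] in
theorem Sched.early {X : Finset V} {l : ℕ} {τ : V → ℕ} (h : Sched lt m X l τ) {s : ℕ}
    (hs : s < l) : Sched lt m (X.filter fun v => τ v < s) s τ := by
  refine ⟨fun v hv => (mem_filter.1 hv).2, fun t ht => ?_, fun u hu v hv =>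
    h.2.2 u (mem_filter.1 hu).1 v (mem_filter.1 hv).1⟩
  rw [← h.2.1 t (by omega), filter_filter]
  congr 1
  refine filter_congr fun v _ => ?_
  omega

omit [Fintype V] [DecidableEq V] [DecidableRel lt] in
theorem Sched.late {X : Finset V} {l : ℕ} {τ : V → ℕ} (h : Sched lt m X l τ) (s : ℕ) :
    Sched lt m (X.filter fun v => s < τ v) (l - s - 1) (fun v => τ v - s - 1) := by
  refine ⟨fun v hv => ?_, fun t ht => ?_, fun u hu v hv huv => ?_⟩
  · have := mem_filter.1 hv
    have := h.1 v this.1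
    simp only; omega
  · rw [← h.2.1 (t + s + 1) (by omega), filter_filter]
    congr 1
    refine filter_congr fun v _ => ?_
    simp only; omega
  · have h1 := mem_filter.1 hu
    have := h.2.2 u h1.1 v (mem_filter.1 hv).1 huv
    simp only; omega

omit [Fintype V] [DecidableEq V] [DecidableRel lt] in
theorem Sched.slot {X : Finset V} {l : ℕ} {τ : V → ℕ} (h : Sched lt m X l τ) {s : ℕ}
    (hs : s < l) : Slot lt m (X.filter fun v => τ v = s) := by
  refine ⟨h.2.1 s hs, fun u hu v hv huv => ?_⟩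
  have h1 := mem_filter.1 hu
  have h2 := mem_filter.1 hv
  have := h.2.2 u h1.1 v h2.1 huv
  omega

theorem glue (tr : ∀ a b c, lt a b → lt b c → lt a c) {X S : Finset V} (hS : Slot lt m S)
    (hSX : S ⊆ X) {a b : ℕ} {τ₁ τ₂ : V → ℕ} (h1 : Sched lt m (X \ up lt S) a τ₁)
    (h2 : Sched lt m (X ∩ suc lt S) b τ₂) :
    ∃ τ, Sched lt m X (a + 1 + b) τ ∧ (∀ v ∈ X \ up lt S, τ v = τ₁ v) ∧ (∀ v ∈ S, τ v = a) ∧
      ∀ v ∈ X ∩ suc lt S, τ v = a + 1 + τ₂ v := by
  have hd : ∀ v ∈ S, v ∉ suc lt S := fun v hv hv' => by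
    obtain ⟨s, hs, hsv⟩ := mem_suc.1 hv'
    exact hS.2 s hs v hv hsv
  set τ : V → ℕ := fun v => if v ∈ S then a else if v ∈ suc lt S then a + 1 + τ₂ v else τ₁ v
    with hτ
  have e1 : ∀ v ∈ X \ up lt S, τ v = τ₁ v := fun v hv => by
    have := (mem_sdiff.1 hv).2
    simp only [up, mem_union, not_or] at this
    simp only [hτ, this.1, this.2, if_false]
  have e2 : ∀ v ∈ S, τ v = a := fun v hv => by simp only [hτ, hv, if_true]
  have e3 : ∀ v ∈ X ∩ suc lt S, τ v = a + 1 + τ₂ v := fun v hv => by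
    have h3 := (mem_inter.1 hv).2
    have h4 : v ∉ S := fun h => hd v h h3
    simp only [hτ, h3, h4, if_false, if_true]
  have tri : ∀ v ∈ X, (v ∈ X \ up lt S ∧ τ v = τ₁ v ∧ τ₁ v < a) ∨ (v ∈ S ∧ τ v = a) ∨
      (v ∈ X ∩ suc lt S ∧ τ v = a + 1 + τ₂ v ∧ τ₂ v < b) := fun v hv => by
    by_cases c1 : v ∈ S
    · exact Or.inr (Or.inl ⟨c1, e2 v c1⟩)
    by_cases c2 : v ∈ suc lt S
    · have : v ∈ X ∩ suc lt S := mem_inter.2 ⟨hv, c2⟩
      exact Or.inr (Or.inr ⟨this, e3 v this, h2.1 v this⟩)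
    · have : v ∈ X \ up lt S := mem_sdiff.2 ⟨hv, by simp only [up, mem_union, not_or]; exact ⟨c1, c2⟩⟩
      exact Or.inl ⟨this, e1 v this, h1.1 v this⟩
  refine ⟨τ, ⟨fun v hv => ?_, fun t ht => ?_, fun u hu v hv huv => ?_⟩, e1, e2, e3⟩
  · rcases tri v hv with h | h | h <;> omega
  · rcases lt_trichotomy t a with c | c | c
    · rw [← h1.2.1 t c]
      congr 1
      ext v
      simp only [mem_filter]
      constructor
      · rintro ⟨hv, hvt⟩
        rcases tri v hv with h | h | h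
        · exact ⟨h.1, by omega⟩
        · omega
        · omega
      · rintro ⟨hv, hvt⟩
        exact ⟨(mem_sdiff.1 hv).1, by rw [e1 v hv, hvt]⟩
    · rw [← hS.1]
      congr 1
      ext v
      simp only [mem_filter]
      constructor
      · rintro ⟨hv, hvt⟩
        rcases tri v hv with h | h | h
        · omega
        · exact h.1
        · omega
      · intro hv
        exact ⟨hSX hv, by rw [e2 v hv, c]⟩
    · rw [← h2.2.1 (t - a - 1) (by omega)]
      congr 1
      ext v
      simp only [mem_filter]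
      constructor
      · rintro ⟨hv, hvt⟩
        rcases tri v hv with h | h | h
        · omega
        · omega
        · exact ⟨h.1, by omega⟩
      · rintro ⟨hv, hvt⟩
        exact ⟨(mem_inter.1 hv).1, by rw [e3 v hv]; omega⟩
  · rcases tri u hu with g | g | g <;> rcases tri v hv with h | h | h
    · have := h1.2.2 u g.1 v h.1 huv; omega
    · omega
    · omega
    · exact absurd (mem_up.2 (Or.inr ⟨u, g.1, huv⟩)) (mem_sdiff.1 h.1).2
    · exact absurd huv (hS.2 u g.1 v h.1)
    · omega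
    · obtain ⟨s, hs, hsu⟩ := mem_suc.1 (mem_inter.1 g.1).2
      exact absurd (mem_up.2 (Or.inr ⟨s, hs, tr _ _ _ hsu huv⟩)) (mem_sdiff.1 h.1).2
    · obtain ⟨s, hs, hsu⟩ := mem_suc.1 (mem_inter.1 g.1).2
      exact absurd (tr _ _ _ hsu huv) (hS.2 s hs v h.1)
    · have := h2.2.2 u g.1 v h.1 huv; omega

omit [Fintype V] in
theorem swap_mem {X : Finset V} {x y : V} (hx : x ∈ X) (hy : y ∈ X) {v : V} (hv : v ∈ X) :
    Equiv.swap x y v ∈ X := by
  rw [Equiv.swap_apply_def]; split_ifs <;> assumption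

omit [Fintype V] in
theorem swap_filter {X : Finset V} {x y : V} (hx : x ∈ X) (hy : y ∈ X) (τ : V → ℕ) (t : ℕ) :
    (X.filter fun v => τ (Equiv.swap x y v) = t) =
      (X.filter fun v => τ v = t).map (Equiv.swap x y).toEmbedding := by
  ext v
  simp only [mem_filter, mem_map_equiv, Equiv.symm_swap]
  constructor
  · rintro ⟨h1, h2⟩; exact ⟨swap_mem hx hy h1, h2⟩
  · rintro ⟨h1, h2⟩
    have := swap_mem hx hy h1
    rw [Equiv.swap_apply_self] at this
    exact ⟨this, h2⟩

omit [Fintype V] [DecidableRel lt] in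
theorem Sched.swap {X : Finset V} {l : ℕ} {τ : V → ℕ} (h : Sched lt m X l τ) {x y : V}
    (hx : x ∈ X) (hy : y ∈ X) (hxy : τ x < τ y) (h1 : ∀ v ∈ X, lt x v → τ y < τ v)
    (h2 : ∀ u ∈ X, lt u y → τ u < τ x) : Sched lt m X l (fun v => τ (Equiv.swap x y v)) := by
  refine ⟨fun v hv => h.1 _ (swap_mem hx hy hv), fun t ht => ?_, fun u hu v hv huv => ?_⟩
  · rw [swap_filter hx hy, card_map, h.2.1 t ht]
  · have h3 := h.2.2 u hu v hv huv
    simp only [Equiv.swap_apply_def]
    split_ifs with a1 a2 a3 a4 a5 a6 a7 a8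
    all_goals subst_vars
    all_goals first
      | omega
      | (have := h1 _ hv huv; omega)
      | (have := h2 _ hu huv; omega)

theorem Sched.later (tr : ∀ a b c, lt a b → lt b c → lt a c) {X : Finset V} {l : ℕ} {τ : V → ℕ}
    (h : Sched lt m X l τ) {z : V} (hz : z ∈ X) (sink : ∀ v ∈ X, ¬ lt z v)
    (hmax : ∀ τ', Sched lt m X l τ' → τ' z ≤ τ z) :
    ∀ y ∈ X, τ z < τ y → y ∈ suc lt (X.filter fun v => τ v = τ z) := by
  intro y
  induction hk : τ y using Nat.strong_induction_on generalizing y with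
  | _ k ih =>
  intro hy hlt
  by_contra hn
  have := hmax _ (h.swap hz hy (by omega) (fun v hv hzv => absurd hzv (sink v hv))
    (fun u hu huy => by
      have h3 := h.2.2 u hu y hy huy
      rcases lt_trichotomy (τ u) (τ z) with c | c | c
      · exact c
      · exact absurd (mem_suc.2 ⟨u, mem_filter.2 ⟨hu, c⟩, huy⟩) hn
      · obtain ⟨s, hs, hsu⟩ := mem_suc.1 (ih (τ u) (by omega) u rfl hu c)
        exact absurd (mem_suc.2 ⟨s, hs, tr _ _ _ hsu huy⟩) hn))
  simp only [Equiv.swap_apply_left] at this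
  omega

/-- The dynamic program, run for `i` rounds on the family `F`. -/
def Dp (lt : V → V → Prop) [DecidableRel lt] (m : ℕ) (F : Finset V → Prop) :
    ℕ → Finset V → Prop
  | 0, _ => False
  | i + 1, X => F X ∧ (X = ∅ ∨ ∃ S, Slot lt m S ∧ S ⊆ X ∧ Dp lt m F i (X \ up lt S) ∧
      Dp lt m F i (X ∩ suc lt S))

theorem Dp.feas (tr : ∀ a b c, lt a b → lt b c → lt a c) {F : Finset V → Prop} {i : ℕ}
    {X : Finset V} (h : Dp lt m F i X) : Feas lt m X := by
  induction i generalizing X with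
  | zero => exact h.elim
  | succ i ih =>
    rcases h.2 with rfl | ⟨S, hS, hSX, h1, h2⟩
    · exact feas_empty
    · obtain ⟨a, τ₁, g1⟩ := ih h1
      obtain ⟨b, τ₂, g2⟩ := ih h2
      obtain ⟨τ, g, -⟩ := glue tr hS hSX g1 g2
      exact ⟨_, τ, g⟩

end Vale.Agent.P324.QP
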